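import Vale.Agent.P365.Inf.Final

set_option linter.all false

/-!
# P365 INF: the fractional moment hypothesis in terms of product measures on the box, for an
iid background; final form of the theorem
-/

namespace P365L.Inf

open MeasureTheory ProbabilityTheory Complex Filter Topology
open scoped ENNReal InnerProductSpace

variable {Ω : Type*} [MeasurableSpace Ω] {P : Measure Ω} [IsProbabilityMeasure P]
variable {γ : ℝ} {U c : Site → Ω → ℝ}

/-- the law of the background and of the Cauchy variables around any site -/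
theorem lintegral_box (hs : Setup P U c) (hUi : iIndepFun U P) {ρ : Measure ℝ}
    [IsProbabilityMeasure ρ] (hUl : ∀ x, P.map (U x) = ρ) (x : Site) (M : ℕ)
    {F : (Lam M → ℝ) × (Lam M → ℝ) → ℝ≥0∞} (hF : Measurable F) :
    ∫⁻ ω, F (fun y => U (x + y) ω, fun y => c (x + y) ω) ∂P =
      ∫⁻ u, ∫⁻ v, F (u, v) ∂(mu (Lam M)) ∂(Measure.pi fun _ : Lam M => ρ) := by
  set U' : Ω → (Lam M → ℝ) := fun ω y => U (x + y) ω with hU'
  set c' : Ω → (Lam M → ℝ) := fun ω y => c (x + y) ω with hc'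
  have hU'm : Measurable U' := measurable_pi_lambda _ fun y => hs.hU _
  have hc'm : Measurable c' := measurable_pi_lambda _ fun y => hs.hc _
  have hinj : Function.Injective (fun y : Lam M => x + (y : Site)) := by
    intro a b hab
    exact Subtype.ext (add_left_cancel hab)
  have hci' : iIndepFun (fun y : Lam M => c (x + y)) P := hs.hci.precomp hinj
  have hUi' : iIndepFun (fun y : Lam M => U (x + y)) P := hUi.precomp hinj
  have hlaw : P.map c' = mu (Lam M) := by
    have h1 := (iIndepFun_iff_map_fun_eq_pi_map (fun y : Lam M => (hs.hc (x + y)).aemeasurable)).mp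
      hci'
    rw [hc', h1]
    simp only [hs.hcl]
  have hlawU : P.map U' = Measure.pi fun _ : Lam M => ρ := by
    have h1 := (iIndepFun_iff_map_fun_eq_pi_map (fun y : Lam M => (hs.hU (x + y)).aemeasurable)).mp
      hUi'
    rw [hU', h1]
    simp only [hUl]
  have hind : IndepFun U' c' P := by
    have h1 : Measurable (fun (v : Site → ℝ) (y : Lam M) => v (x + y)) :=
      measurable_pi_lambda _ fun y => measurable_pi_apply _
    exact hs.hUc.comp h1 h1
  have hprod : P.map (fun ω => (U' ω, c' ω)) = (P.map U').prod (mu (Lam M)) := by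
    rw [(indepFun_iff_map_prod_eq_prod_map_map hU'm.aemeasurable hc'm.aemeasurable).mp hind, hlaw]
  have l1 : ∫⁻ ω, F (U' ω, c' ω) ∂P = ∫⁻ p, F p ∂((P.map U').prod (mu (Lam M))) := by
    rw [← hprod, lintegral_map hF (hU'm.prodMk hc'm)]
  show ∫⁻ ω, F (U' ω, c' ω) ∂P = _
  rw [l1, hlawU, lintegral_prod _ hF.aemeasurable]

/-- the finite volume hypothesis on the box `Lam M`, with product measures: the background `u` has
the product law `ρ`, the Cauchy variables `v` are iid standard Cauchy -/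
def FMbox (γ : ℝ) (ρ : Measure ℝ) (E : ℝ) : Prop :=
  ∃ s C c₀ η₀ : ℝ, 0 < s ∧ s ≤ 1 ∧ 0 < c₀ ∧ 0 < η₀ ∧ ∀ η : ℝ, 0 < η → η ≤ η₀ → ∀ y : Site,
    ∀ᶠ M in atTop, ∀ hy : y ∈ Lam M,
      ∫⁻ u, ∫⁻ v, ENNReal.ofReal
        (‖GT (AL M) γ u (E + η * I) Finset.univ v ⟨y, hy⟩ (oL M)‖ ^ s)
          ∂(mu (Lam M)) ∂(Measure.pi fun _ : Lam M => ρ) ≤
        ENNReal.ofReal (C * Real.exp (-c₀ * n1 y))

theorem FM_of_box (hs : Setup P U c) (hUi : iIndepFun U P) {ρ : Measure ℝ}
    [IsProbabilityMeasure ρ] (hUl : ∀ x, P.map (U x) = ρ) {E : ℝ} (h : FMbox γ ρ E) (x : Site) :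
    FM P (fun ω => shift x (pot γ U c ω)) E := by
  obtain ⟨s, C, c₀, η₀, hs0, hs1, hc₀, hη₀, H⟩ := h
  refine ⟨s, C, c₀, η₀, hs0, hs1, hc₀, hη₀, fun η hη hη1 y => ?_⟩
  have hev : ∀ᶠ M in atTop, y ∈ Lam M :=
    (eventually_ge_atTop (y.1.natAbs + y.2.natAbs)).mono fun L hL => (mem_Lam L y).2 hL
  filter_upwards [H η hη hη1 y, hev] with M hM hy
  refine le_trans (le_of_eq ?_) (hM hy)
  set F : (Lam M → ℝ) × (Lam M → ℝ) → ℝ≥0∞ := fun p =>
    ENNReal.ofReal (‖GT (AL M) γ p.1 (E + η * I) Finset.univ p.2 ⟨y, hy⟩ (oL M)‖ ^ s) with hF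
  have hFm : Measurable F := by
    have h1 : Measurable fun p : (Lam M → ℝ) × (Lam M → ℝ) =>
        GT (AL M) γ p.1 (E + η * I) Finset.univ p.2 ⟨y, hy⟩ (oL M) := by
      unfold GT
      refine measurable_Gr (fun (p : (Lam M → ℝ) × (Lam M → ℝ)) =>
        Wt γ p.1 (E + η * I) Finset.univ p.2) (fun y => ?_) _ _
      simp only [Wt, Finset.mem_univ, if_true]
      have h2 : Measurable fun p : (Lam M → ℝ) × (Lam M → ℝ) => p.1 y :=
        (measurable_pi_apply y).comp measurable_fst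
      have h3 : Measurable fun p : (Lam M → ℝ) × (Lam M → ℝ) => p.2 y :=
        (measurable_pi_apply y).comp measurable_snd
      exact ((Complex.measurable_ofReal.comp h2).add
        ((Complex.measurable_ofReal.comp h3).const_mul _)).sub_const _
    exact (h1.norm.pow_const s).ennreal_ofReal
  rw [← lintegral_box hs hUi hUl x M hFm]
  refine lintegral_congr fun ω => ?_
  have h1 : (shift x (pot γ U c ω)) = fun y => (fun y => U (x + y) ω) y +
      γ * (fun y => c (x + y) ω) y := rfl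
  have h2 : GVs M (shift x (pot γ U c ω)) (E + η * I) y =
      GT (AL M) γ (fun y : Lam M => U (x + y) ω) (E + η * I) Finset.univ
        (fun y : Lam M => c (x + y) ω) ⟨y, hy⟩ (oL M) := by
    have h3 : GVs M (shift x (pot γ U c ω)) (E + η * I) y =
        GV M (shift x (pot γ U c ω)) (E + η * I) ⟨y, hy⟩ (oL M) :=
      GVs_coe M _ _ ⟨y, hy⟩
    rw [h3, h1, GV_eq_GT]
  rw [h2]

/-- **Final form**: iid background of law `ρ`, iid standard Cauchy variables, independent. -/
theorem pure_point_iid (hγ : 0 < γ) (hs : Setup P U c) (hUi : iIndepFun U P) {ρ : Measure ℝ}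
    [IsProbabilityMeasure ρ] (hUl : ∀ x, P.map (U x) = ρ) (h : ∀ E : ℝ, FMbox γ ρ E) :
    ∀ᵐ ω ∂P, EE (pot γ U c ω) = ⊤ :=
  pure_point hγ hs fun x E => FM_of_box hs hUi hUl (h E) x

/-- shifting the energy into the background: it is enough to know the hypothesis at energy zero
for the translated laws -/
theorem GT_energy {ι : Type*} [Fintype ι] [DecidableEq ι] (A : Matrix ι ι ℝ) (γ : ℝ) (u : ι → ℝ)
    (E : ℝ) (w : ℂ) (T : Finset ι) (v : ι → ℝ) :
    GT A γ u (E + w) T v = GT A γ (fun x => u x - E) w T v := by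
  unfold GT
  congr 1
  funext x
  unfold Wt
  push_cast
  ring

/-- the eigenspace -/
noncomputable def NE (V : Site → ℝ) (E : ℝ) : Submodule ℂ L2 where
  carrier := {u | IsEig V E u}
  add_mem' := by
    intro a b ha hb x
    have h1 := ha x
    have h2 := hb x
    simp only [hop, lp.coeFn_add, Pi.add_apply] at *
    linear_combination h1 + h2
  zero_mem' := by
    intro x
    simp only [hop, lp.coeFn_zero, Pi.zero_apply]
    ring
  smul_mem' := by
    intro k a ha x
    have h1 := ha x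
    simp only [hop, lp.coeFn_smul, Pi.smul_apply, smul_eq_mul] at *
    linear_combination k * h1

theorem mem_NE {V : Site → ℝ} {E : ℝ} {u : L2} : u ∈ NE V E ↔ IsEig V E u := Iff.rfl

theorem isClosed_NE (V : Site → ℝ) (E : ℝ) : IsClosed (NE V E : Set L2) := by
  have hc : ∀ x : Site, Continuous fun u : L2 => u x := by
    intro x
    have h1 : (fun u : L2 => u x) = fun u : L2 => ⟪dl x, u⟫_ℂ := by
      funext u
      rw [inner_dl]
    rw [h1]
    exact continuous_const.inner continuous_id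
  have h2 : (NE V E : Set L2) = ⋂ x : Site, {u : L2 | hop (fun y => u y) x + (V x : ℂ) * u x =
      (E : ℂ) * u x} := by
    ext u
    simp only [Set.mem_iInter, Set.mem_setOf_eq]
    rfl
  rw [h2]
  refine isClosed_iInter fun x => isClosed_eq ?_ ?_
  · unfold hop
    exact ((((hc _).add (hc _)).add (hc _)).add (hc _)).add (continuous_const.mul (hc x))
  · exact continuous_const.mul (hc x)

instance (V : Site → ℝ) (E : ℝ) : CompleteSpace (NE V E) := (isClosed_NE V E).completeSpace_coe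

/-- eigenvectors of different eigenvalues are orthogonal -/
theorem eig_orth {V : Site → ℝ} {E F : ℝ} (h : E ≠ F) {e f : L2} (he : IsEig V E e)
    (hf : IsEig V F f) : ⟪e, f⟫_ℂ = 0 := by
  have hz : 0 < (I : ℂ).im := by simp
  have h1 := inner_res_eig (z := I) hz he f
  rw [res_eig hz hf, inner_smul_right] at h1
  have hE := sub_ne (z := I) hz E
  have hF := sub_ne (z := I) hz F
  have h2 : ((F : ℂ) - I)⁻¹ ≠ ((E : ℂ) - I)⁻¹ := by
    intro h3
    have h4 := inv_injective h3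
    apply h
    have h5 : (F : ℂ) = E := by linear_combination h4
    exact_mod_cast h5.symm
  by_contra h3
  exact h2 (mul_right_cancel₀ h3 h1)

/-- atoms of the spectral measures -/
theorem atom_ge {V : Site → ℝ} {ψ : L2} {μ : Measure ℝ} (hμ : IsSpectralMeasure V ψ μ) (E : ℝ) :
    ‖(NE V E).starProjection ψ‖ ^ 2 ≤ μ.real {E} := by
  have := hμ.finite
  set p : L2 := (NE V E).starProjection ψ with hp
  set q : L2 := ψ - p with hq
  have hpm : IsEig V E p := mem_NE.1 (Submodule.starProjection_apply_mem (NE V E) ψ)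
  have hqm : q ∈ (NE V E)ᗮ := Submodule.sub_starProjection_mem_orthogonal _
  have hψ : ψ = p + q := by rw [hq]; abel
  set η : ℕ → ℝ := fun k => 1 / ((k : ℝ) + 1) with hηdef
  have hη : ∀ k, 0 < η k := fun k => by simp only [hηdef]; positivity
  have hη0 : Tendsto η atTop (𝓝 0) := tendsto_one_div_add_atTop_nhds_zero_nat
  have h1 := (Complex.continuous_re.tendsto _).comp (tendsto_atom μ E η hη hη0)
  rw [Complex.ofReal_re] at h1
  refine ge_of_tendsto' h1 fun k => ?_
  simp only [Function.comp_apply]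
  have hz := hz_im E (hη k)
  rw [← inner_res_eq_BT hμ E (hη k)]
  have h2 : ⟪ψ, Res V (E + η k * I) ψ⟫_ℂ = ((E : ℂ) - (E + η k * I))⁻¹ * ((‖p‖ ^ 2 : ℝ) : ℂ) +
      ⟪q, Res V (E + η k * I) q⟫_ℂ := by
    rw [hψ, res_add hz, inner_add_right, inner_add_left, inner_add_left, res_eig hz hpm,
      inner_smul_right, inner_smul_right, inner_res_eig hz hpm]
    have h3 : ⟪p, q⟫_ℂ = 0 := (Submodule.mem_orthogonal _ _).1 hqm p hpm
    have h4 : ⟪q, p⟫_ℂ = 0 := by rw [← inner_conj_symm, h3]; simp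
    have h5 : ⟪p, p⟫_ℂ = ((‖p‖ ^ 2 : ℝ) : ℂ) := by
      rw [inner_self_eq_norm_sq_to_K]
      norm_cast
    rw [h3, h4, h5]
    ring
  rw [h2, mul_add]
  have h3 : (-(η k : ℂ) * I) * (((E : ℂ) - (E + η k * I))⁻¹ * ((‖p‖ ^ 2 : ℝ) : ℂ)) =
      ((‖p‖ ^ 2 : ℝ) : ℂ) := by
    have h4 : (E : ℂ) - (E + η k * I) = -(η k : ℂ) * I := by ring
    have h5 : (-(η k : ℂ) * I) ≠ 0 :=
      mul_ne_zero (neg_ne_zero.2 (by exact_mod_cast (hη k).ne')) I_ne_zero
    rw [h4, ← mul_assoc, mul_inv_cancel₀ h5, one_mul]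
  rw [h3, Complex.add_re, Complex.ofReal_re]
  have h4 : 0 ≤ ((-(η k : ℂ) * I) * ⟪q, Res V (E + η k * I) q⟫_ℂ).re := by
    have h5 : ((-(η k : ℂ) * I) * ⟪q, Res V (E + η k * I) q⟫_ℂ).re =
        η k * (⟪q, Res V (E + η k * I) q⟫_ℂ).im := by
      simp only [mul_re, mul_im, neg_re, neg_im, ofReal_re, ofReal_im, I_re, I_im]
      ring
    rw [h5, res_energy hz]
    have := hη k
    positivity
  linarith

/-- the mass of a spectral measure -/
theorem mass_eq {V : Site → ℝ} {ψ : L2} {μ : Measure ℝ} (hμ : IsSpectralMeasure V ψ μ) :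
    μ.real Set.univ = ‖ψ‖ ^ 2 := by
  have := hμ.finite
  have h1 := energy_integral V one_pos ψ
  have h2 := lintegral_poisson_eq (μ := μ) one_pos
  have h3 : ∀ E : ℝ, (1 : ℝ) * ‖Res V (E + (1 : ℝ) * I) ψ‖ ^ 2 =
      ∫ t, 1 / ((t - E) ^ 2 + 1 ^ 2) ∂μ :=
    fun E => (poisson_eq hμ E one_pos (res_spec V (hz_im E one_pos) ψ)).symm
  simp only [h3] at h1
  rw [h1, ENNReal.ofReal_mul Real.pi_pos.le] at h2
  have h4 : ENNReal.ofReal (‖ψ‖ ^ 2) = μ Set.univ :=
    (ENNReal.mul_right_inj (by simpa using Real.pi_pos) ENNReal.ofReal_ne_top).1 h2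
  rw [Measure.real, ← h4, ENNReal.toReal_ofReal (sq_nonneg _)]

/-- pure point spectrum implies that all spectral measures are purely atomic -/
theorem spectral_atomic {V : Site → ℝ} (hV : EE V = ⊤) {ψ : L2} {μ : Measure ℝ}
    (hμ : IsSpectralMeasure V ψ μ) : ∃ S : Set ℝ, S.Countable ∧ μ Sᶜ = 0 := by
  classical
  have := hμ.finite
  -- approximation by finitely many eigenspaces
  have key : ∀ ε : ℝ, 0 < ε → ∃ F : Finset ℝ, ‖ψ‖ ^ 2 - ε ≤ μ.real (F : Set ℝ) := by
    intro ε hε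
    have hmem : ψ ∈ closure ((Submodule.span ℂ {u : L2 | ∃ E : ℝ, IsEig V E u} :
        Submodule ℂ L2) : Set L2) := by
      have : ψ ∈ EE V := by rw [hV]; exact Submodule.mem_top
      exact this
    obtain ⟨φ, hφ, hd⟩ := Metric.mem_closure_iff.1 hmem (Real.sqrt ε) (Real.sqrt_pos.2 hε)
    -- a finite set of eigenvalues
    have hfin : ∃ F : Finset ℝ, φ ∈ ⨆ E ∈ F, NE V E := by
      have hφ' : φ ∈ Submodule.span ℂ {u : L2 | ∃ E : ℝ, IsEig V E u} := hφ
      clear hd hφ
      induction hφ' using Submodule.span_induction with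
      | mem x hx =>
        obtain ⟨E, hE⟩ := hx
        exact ⟨{E}, by simpa using mem_NE.2 hE⟩
      | zero => exact ⟨∅, Submodule.zero_mem _⟩
      | add x y _ _ hx hy =>
        obtain ⟨F, hF⟩ := hx
        obtain ⟨G, hG⟩ := hy
        refine ⟨F ∪ G, Submodule.add_mem _ ?_ ?_⟩
        · have hle : (⨆ E ∈ F, NE V E) ≤ ⨆ E ∈ F ∪ G, NE V E :=
            biSup_mono fun E (hE : E ∈ F) => Finset.mem_union_left G hE
          exact hle hF
        · have hle : (⨆ E ∈ G, NE V E) ≤ ⨆ E ∈ F ∪ G, NE V E :=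
            biSup_mono fun E (hE : E ∈ G) => Finset.mem_union_right F hE
          exact hle hG
      | smul k x _ hx =>
        obtain ⟨F, hF⟩ := hx
        exact ⟨F, Submodule.smul_mem _ _ hF⟩
    obtain ⟨F, hF⟩ := hfin
    refine ⟨F, ?_⟩
    set p : ℝ → L2 := fun E => (NE V E).starProjection ψ with hp
    set s : L2 := ∑ E ∈ F, p E with hs
    -- ψ - s is orthogonal to all the eigenspaces in F
    have hpm : ∀ E, IsEig V E (p E) := fun E =>
      mem_NE.1 (Submodule.starProjection_apply_mem (NE V E) ψ)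
    have horth : ∀ E ∈ F, ∀ e : L2, IsEig V E e → ⟪e, ψ - s⟫_ℂ = 0 := by
      intro E hE e he
      have h1 : ⟪e, s⟫_ℂ = ⟪e, p E⟫_ℂ := by
        rw [hs, inner_sum, Finset.sum_eq_single E]
        · intro E' _ hne
          exact eig_orth (Ne.symm hne) he (hpm E')
        · intro h
          exact absurd hE h
      have h2 : ⟪e, ψ - p E⟫_ℂ = 0 :=
        (Submodule.mem_orthogonal _ _).1 (Submodule.sub_starProjection_mem_orthogonal ψ) e he
      rw [inner_sub_right, h1, ← inner_sub_right, h2]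
    have hsup : ∀ χ ∈ ⨆ E ∈ F, NE V E, ⟪χ, ψ - s⟫_ℂ = 0 := by
      intro χ hχ
      have hle : ⨆ E ∈ F, NE V E ≤ (ℂ ∙ (ψ - s))ᗮ := by
        refine iSup₂_le fun E hE e he => ?_
        rw [Submodule.mem_orthogonal_singleton_iff_inner_left]
        exact horth E hE e he
      exact (Submodule.mem_orthogonal_singleton_iff_inner_left).1 (hle hχ)
    have hsF : s ∈ ⨆ E ∈ F, NE V E := by
      refine Submodule.sum_mem _ fun E hE => ?_
      exact (le_biSup (fun E => NE V E) hE) (hpm E)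
    -- norms
    have n1 : ‖ψ - s‖ ^ 2 ≤ ε := by
      have h1 : ‖ψ - φ‖ ^ 2 = ‖ψ - s‖ ^ 2 + ‖s - φ‖ ^ 2 := by
        have h2 : ψ - φ = (ψ - s) + (s - φ) := by abel
        have h3 : ⟪ψ - s, s - φ⟫_ℂ = 0 := by
          rw [← inner_conj_symm, hsup _ (Submodule.sub_mem _ hsF hF)]
          simp
        rw [h2, @norm_add_sq ℂ, h3]
        simp
      have h2 : ‖ψ - φ‖ < Real.sqrt ε := by rwa [← dist_eq_norm]
      have h3 : ‖ψ - φ‖ ^ 2 ≤ ε := by
        have := pow_le_pow_left₀ (norm_nonneg _) h2.le 2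
        rwa [Real.sq_sqrt hε.le] at this
      nlinarith [sq_nonneg ‖s - φ‖]
    have n2 : ‖ψ‖ ^ 2 = ‖ψ - s‖ ^ 2 + ‖s‖ ^ 2 := by
      have h2 : ψ = (ψ - s) + s := by abel
      have h3 : ⟪ψ - s, s⟫_ℂ = 0 := by
        rw [← inner_conj_symm, hsup _ hsF]
        simp
      conv_lhs => rw [h2]
      rw [@norm_add_sq ℂ, h3]
      simp
    have n3 : ‖s‖ ^ 2 = ∑ E ∈ F, ‖p E‖ ^ 2 := by
      have h1 : ⟪s, s⟫_ℂ = ∑ E ∈ F, ((‖p E‖ ^ 2 : ℝ) : ℂ) := by
        rw [hs, sum_inner]
        refine Finset.sum_congr rfl fun E hE => ?_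
        rw [inner_sum, Finset.sum_eq_single E]
        · rw [inner_self_eq_norm_sq_to_K]
          norm_cast
        · intro E' _ hne
          exact eig_orth (Ne.symm hne) (hpm E) (hpm E')
        · intro h
          exact absurd hE h
      have h5 : ⟪s, s⟫_ℂ = ((‖s‖ ^ 2 : ℝ) : ℂ) := by
        rw [inner_self_eq_norm_sq_to_K]
        norm_cast
      rw [h5, ← Complex.ofReal_sum] at h1
      exact Complex.ofReal_injective h1
    have n4 : ∑ E ∈ F, ‖p E‖ ^ 2 ≤ μ.real (F : Set ℝ) := by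
      rw [← sum_measureReal_singleton]
      exact Finset.sum_le_sum fun E _ => atom_ge hμ E
    linarith
  choose F hF using fun n : ℕ => key (1 / ((n : ℝ) + 1)) (by positivity)
  refine ⟨⋃ n, (F n : Set ℝ), Set.countable_iUnion fun n => (F n).countable_toSet, ?_⟩
  have h1 : ∀ n : ℕ, μ.real (⋃ n, (F n : Set ℝ))ᶜ ≤ 1 / ((n : ℝ) + 1) := by
    intro n
    have hm : MeasurableSet (⋃ n, (F n : Set ℝ)) :=
      MeasurableSet.iUnion fun n => (F n).measurableSet
    rw [measureReal_compl hm, mass_eq hμ]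
    have h2 : μ.real (F n : Set ℝ) ≤ μ.real (⋃ n, (F n : Set ℝ)) :=
      measureReal_mono (Set.subset_iUnion (fun n => (F n : Set ℝ)) n)
    have := hF n
    linarith
  have h2 : μ.real (⋃ n, (F n : Set ℝ))ᶜ ≤ 0 :=
    ge_of_tendsto' tendsto_one_div_add_atTop_nhds_zero_nat h1
  have h3 : μ.real (⋃ n, (F n : Set ℝ))ᶜ = 0 := le_antisymm h2 measureReal_nonneg
  rw [Measure.real, ENNReal.toReal_eq_zero_iff] at h3
  rcases h3 with h3 | h3
  · exact h3
  · exact absurd h3 (measure_ne_top _ _)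

end P365L.Inf
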