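import Vale.Agent.P365.Bdl.B1

set_option linter.all false

/-!
# P365 INF: Wiener's theorem for Borel transforms of finite measures without atoms
-/

namespace P365L.Inf

open MeasureTheory Complex Filter Topology
open scoped ENNReal InnerProductSpace

/-- modulus of `(t - (E + iη))⁻¹` -/
noncomputable def am (t E η : ℝ) : ℝ := (Real.sqrt ((t - E) ^ 2 + η ^ 2))⁻¹

theorem am_nonneg (t E η : ℝ) : 0 ≤ am t E η := inv_nonneg.2 (Real.sqrt_nonneg _)

theorem am_sq (t E : ℝ) {η : ℝ} (hη : 0 < η) : am t E η ^ 2 = 1 / ((t - E) ^ 2 + η ^ 2) := by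
  unfold am
  rw [inv_pow, Real.sq_sqrt (by positivity), one_div]

theorem am_eq (t E : ℝ) {η : ℝ} (hη : 0 < η) :
    ‖((t : ℂ) - (E + η * I))⁻¹‖ = am t E η := by
  unfold am
  rw [norm_inv]
  congr 1
  have h : ((t : ℂ) - (E + η * I)) = ((t - E : ℝ) : ℂ) + ((-η : ℝ) : ℂ) * I := by
    push_cast
    ring
  rw [h, Complex.norm_add_mul_I]
  congr 1
  ring

theorem measurable_am : Measurable fun p : ℝ × ℝ × ℝ => am p.1 p.2.1 p.2.2 := by
  unfold am
  fun_prop

/-- the kernel `η ∫ |t - z|⁻¹ |t' - z|⁻¹ dE` -/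
noncomputable def KK (η t t' : ℝ) : ℝ≥0∞ := ∫⁻ E : ℝ, ENNReal.ofReal (η * (am t E η * am t' E η))

theorem KK_le_pi {η : ℝ} (hη : 0 < η) (t t' : ℝ) : KK η t t' ≤ ENNReal.ofReal Real.pi := by
  have h1 : ∀ E : ℝ, ENNReal.ofReal (η * (am t E η * am t' E η)) ≤
      ENNReal.ofReal (1 / 2) * ENNReal.ofReal (η / ((t - E) ^ 2 + η ^ 2)) +
        ENNReal.ofReal (1 / 2) * ENNReal.ofReal (η / ((t' - E) ^ 2 + η ^ 2)) := by
    intro E
    rw [← ENNReal.ofReal_mul (by norm_num), ← ENNReal.ofReal_mul (by norm_num),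
      ← ENNReal.ofReal_add (by positivity) (by positivity)]
    refine ENNReal.ofReal_le_ofReal ?_
    have h2 := am_sq t E hη
    have h3 := am_sq t' E hη
    have h4 : η / ((t - E) ^ 2 + η ^ 2) = η * am t E η ^ 2 := by rw [h2]; ring
    have h5 : η / ((t' - E) ^ 2 + η ^ 2) = η * am t' E η ^ 2 := by rw [h3]; ring
    rw [h4, h5]
    nlinarith [mul_nonneg hη.le (sq_nonneg (am t E η - am t' E η))]
  unfold KK
  calc ∫⁻ E : ℝ, ENNReal.ofReal (η * (am t E η * am t' E η))
      ≤ ∫⁻ E : ℝ, (ENNReal.ofReal (1 / 2) * ENNReal.ofReal (η / ((t - E) ^ 2 + η ^ 2)) +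
        ENNReal.ofReal (1 / 2) * ENNReal.ofReal (η / ((t' - E) ^ 2 + η ^ 2))) :=
        lintegral_mono h1
    _ = ENNReal.ofReal (1 / 2) * ENNReal.ofReal Real.pi +
        ENNReal.ofReal (1 / 2) * ENNReal.ofReal Real.pi := by
        rw [lintegral_add_left (by fun_prop), lintegral_const_mul _ (by fun_prop),
          lintegral_const_mul _ (by fun_prop), lintegral_poisson_one t hη,
          lintegral_poisson_one t' hη]
    _ = ENNReal.ofReal Real.pi := by
        rw [← ENNReal.ofReal_mul (by norm_num), ← ENNReal.ofReal_add (by positivity) (by positivity)]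
        congr 1
        ring

theorem KK_le {η : ℝ} (hη : 0 < η) {t t' : ℝ} (h : t ≠ t') :
    KK η t t' ≤ ENNReal.ofReal (Real.pi * (Real.sqrt η * (1 + 4 / |t - t'|))) := by
  set d := |t - t'| with hd
  have hd0 : 0 < d := abs_pos.2 (sub_ne_zero.2 h)
  set θ := Real.sqrt η with hθ
  have hθ0 : 0 < θ := Real.sqrt_pos.2 hη
  have hθ2 : θ ^ 2 = η := Real.sq_sqrt hη.le
  have hd2 : 0 < d / 2 := by positivity
  -- pointwise bound
  have key : ∀ E : ℝ, η * (am t E η * am t' E η) ≤
      (θ / 2) * (η / ((t - E) ^ 2 + η ^ 2)) + (θ / 2) * (η / ((t' - E) ^ 2 + η ^ 2)) +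
      ((2 * θ / d) * ((d / 2) / ((t - E) ^ 2 + (d / 2) ^ 2)) +
       (2 * θ / d) * ((d / 2) / ((t' - E) ^ 2 + (d / 2) ^ 2))) := by
    intro E
    have h2 := am_sq t E hη
    have h3 := am_sq t' E hη
    have n1 := am_nonneg t E η
    have n2 := am_nonneg t' E η
    have h4 : η / ((t - E) ^ 2 + η ^ 2) = η * am t E η ^ 2 := by rw [h2]; ring
    have h5 : η / ((t' - E) ^ 2 + η ^ 2) = η * am t' E η ^ 2 := by rw [h3]; ring
    -- generic: if |x - E| ≥ d/2 then η a² ≤ ...
    have gen : ∀ x y : ℝ, d / 2 ≤ |x - E| → η * (am x E η * am y E η) ≤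
        (θ / 2) * (η * am y E η ^ 2) + (2 * θ / d) * ((d / 2) / ((x - E) ^ 2 + (d / 2) ^ 2)) := by
      intro x y hx
      have hx2 : (d / 2) ^ 2 ≤ (x - E) ^ 2 := by
        rw [← sq_abs (x - E)]
        exact pow_le_pow_left₀ hd2.le hx 2
      have a1 : η * (am x E η * am y E η) ≤ (θ / 2) * (η * am y E η ^ 2) +
          (1 / (2 * θ)) * (η * am x E η ^ 2) := by
        have : (θ / 2) * (η * am y E η ^ 2) + (1 / (2 * θ)) * (η * am x E η ^ 2) -
            η * (am x E η * am y E η) = η / (2 * θ) * (θ * am y E η - am x E η) ^ 2 := by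
          field_simp
          ring
        have h6 : 0 ≤ η / (2 * θ) * (θ * am y E η - am x E η) ^ 2 := by positivity
        linarith
      have a2 : (1 / (2 * θ)) * (η * am x E η ^ 2) ≤
          (2 * θ / d) * ((d / 2) / ((x - E) ^ 2 + (d / 2) ^ 2)) := by
        rw [am_sq x E hη]
        have e1 : (1 / (2 * θ)) * (η * (1 / ((x - E) ^ 2 + η ^ 2))) =
            θ / (2 * ((x - E) ^ 2 + η ^ 2)) := by
          rw [← hθ2]
          field_simp
        have e2 : (2 * θ / d) * ((d / 2) / ((x - E) ^ 2 + (d / 2) ^ 2)) =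
            θ / ((x - E) ^ 2 + (d / 2) ^ 2) := by
          field_simp
        rw [e1, e2]
        refine div_le_div_of_nonneg_left hθ0.le (by positivity) ?_
        nlinarith [sq_nonneg η]
      linarith
    have p1 : 0 ≤ (2 * θ / d) * ((d / 2) / ((t - E) ^ 2 + (d / 2) ^ 2)) := by positivity
    have p2 : 0 ≤ (2 * θ / d) * ((d / 2) / ((t' - E) ^ 2 + (d / 2) ^ 2)) := by positivity
    have p3 : 0 ≤ (θ / 2) * (η * am t E η ^ 2) := by positivity
    have p4 : 0 ≤ (θ / 2) * (η * am t' E η ^ 2) := by positivity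
    rw [h4, h5]
    rcases le_total (d / 2) |t - E| with hc | hc
    · have := gen t t' hc
      linarith
    · have hc2 : d / 2 ≤ |t' - E| := by
        have : d ≤ |t - E| + |t' - E| := by
          rw [hd]
          have : t - t' = (t - E) - (t' - E) := by ring
          rw [this]
          exact abs_sub _ _
        linarith
      have := gen t' t hc2
      have hcomm : am t E η * am t' E η = am t' E η * am t E η := mul_comm _ _
      rw [hcomm]
      linarith
  unfold KK
  calc ∫⁻ E : ℝ, ENNReal.ofReal (η * (am t E η * am t' E η))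
      ≤ ∫⁻ E : ℝ, ((ENNReal.ofReal (θ / 2) * ENNReal.ofReal (η / ((t - E) ^ 2 + η ^ 2)) +
          ENNReal.ofReal (θ / 2) * ENNReal.ofReal (η / ((t' - E) ^ 2 + η ^ 2))) +
        (ENNReal.ofReal (2 * θ / d) * ENNReal.ofReal ((d / 2) / ((t - E) ^ 2 + (d / 2) ^ 2)) +
          ENNReal.ofReal (2 * θ / d) *
            ENNReal.ofReal ((d / 2) / ((t' - E) ^ 2 + (d / 2) ^ 2)))) := by
        refine lintegral_mono fun E => ?_
        simp only
        rw [← ENNReal.ofReal_mul (by positivity), ← ENNReal.ofReal_mul (by positivity),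
          ← ENNReal.ofReal_mul (by positivity), ← ENNReal.ofReal_mul (by positivity),
          ← ENNReal.ofReal_add (by positivity) (by positivity),
          ← ENNReal.ofReal_add (by positivity) (by positivity),
          ← ENNReal.ofReal_add (by positivity) (by positivity)]
        exact ENNReal.ofReal_le_ofReal (key E)
    _ = (ENNReal.ofReal (θ / 2) * ENNReal.ofReal Real.pi +
          ENNReal.ofReal (θ / 2) * ENNReal.ofReal Real.pi) +
        (ENNReal.ofReal (2 * θ / d) * ENNReal.ofReal Real.pi +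
          ENNReal.ofReal (2 * θ / d) * ENNReal.ofReal Real.pi) := by
        rw [lintegral_add_left (by fun_prop), lintegral_add_left (by fun_prop),
          lintegral_add_left (by fun_prop), lintegral_const_mul _ (by fun_prop),
          lintegral_const_mul _ (by fun_prop), lintegral_const_mul _ (by fun_prop),
          lintegral_const_mul _ (by fun_prop), lintegral_poisson_one t hη,
          lintegral_poisson_one t' hη, lintegral_poisson_one t hd2,
          lintegral_poisson_one t' hd2]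
    _ = ENNReal.ofReal (Real.pi * (θ * (1 + 4 / d))) := by
        rw [← ENNReal.ofReal_mul (by positivity), ← ENNReal.ofReal_mul (by positivity),
          ← ENNReal.ofReal_add (by positivity) (by positivity),
          ← ENNReal.ofReal_add (by positivity) (by positivity),
          ← ENNReal.ofReal_add (by positivity) (by positivity)]
        congr 1
        ring

theorem measurable_KK (η : ℝ) : Measurable fun p : ℝ × ℝ => KK η p.1 p.2 := by
  unfold KK
  refine Measurable.lintegral_prod_right' (f := fun q : (ℝ × ℝ) × ℝ =>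
    ENNReal.ofReal (η * (am q.1.1 q.2 η * am q.1.2 q.2 η))) ?_
  unfold am
  fun_prop

/-- the double integral of the kernel tends to zero if there are no atoms -/
theorem tendsto_KK (μ : Measure ℝ) [IsFiniteMeasure μ] (hμ : ∀ t : ℝ, μ {t} = 0)
    (η : ℕ → ℝ) (hη : ∀ k, 0 < η k) (hη0 : Tendsto η atTop (𝓝 0)) :
    Tendsto (fun k => ∫⁻ p, KK (η k) p.1 p.2 ∂(μ.prod μ)) atTop (𝓝 0) := by
  have h0 : ∫⁻ p, (0 : ℝ≥0∞) ∂(μ.prod μ) = 0 := lintegral_zero
  rw [← h0]
  refine tendsto_lintegral_of_dominated_convergence (fun _ => ENNReal.ofReal Real.pi)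
    (fun k => measurable_KK (η k)) (fun k => ae_of_all _ fun p => KK_le_pi (hη k) _ _) ?_ ?_
  · rw [lintegral_const]
    exact ENNReal.mul_ne_top ENNReal.ofReal_ne_top (measure_ne_top _ _)
  · have hdiag : (μ.prod μ) {p : ℝ × ℝ | p.1 = p.2} = 0 := by
      have hm : MeasurableSet {p : ℝ × ℝ | p.1 = p.2} := measurableSet_eq_fun measurable_fst
        measurable_snd
      rw [Measure.prod_apply hm]
      have : ∀ x : ℝ, μ (Prod.mk x ⁻¹' {p : ℝ × ℝ | p.1 = p.2}) = 0 := by
        intro x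
        have hs : Prod.mk x ⁻¹' {p : ℝ × ℝ | p.1 = p.2} = {x} := by
          ext y
          simp [eq_comm]
        rw [hs, hμ]
      simp only [this, lintegral_zero]
    have hae : ∀ᵐ p ∂(μ.prod μ), ¬ (p.1 = p.2) := by
      rw [ae_iff]
      simpa using hdiag
    filter_upwards [hae] with p hp
    have hb : ∀ k, KK (η k) p.1 p.2 ≤
        ENNReal.ofReal (Real.pi * (Real.sqrt (η k) * (1 + 4 / |p.1 - p.2|))) :=
      fun k => KK_le (hη k) hp
    have hlim : Tendsto (fun k => ENNReal.ofReal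
        (Real.pi * (Real.sqrt (η k) * (1 + 4 / |p.1 - p.2|)))) atTop (𝓝 0) := by
      have h1 : Tendsto (fun k => Real.pi * (Real.sqrt (η k) * (1 + 4 / |p.1 - p.2|))) atTop
          (𝓝 (Real.pi * (Real.sqrt 0 * (1 + 4 / |p.1 - p.2|)))) :=
        ((hη0.sqrt.mul_const _).const_mul _)
      have h2 := ENNReal.tendsto_ofReal h1
      simpa using h2
    exact tendsto_of_tendsto_of_tendsto_of_le_of_le tendsto_const_nhds hlim
      (fun _ => bot_le) hb

/-- Borel transform -/
noncomputable def BT (μ : Measure ℝ) (E η : ℝ) : ℂ := ∫ t : ℝ, ((t : ℂ) - (E + η * I))⁻¹ ∂μ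

theorem norm_BT_sq_le (μ : Measure ℝ) [IsFiniteMeasure μ] (E : ℝ) {η : ℝ} (hη : 0 < η) :
    ENNReal.ofReal (η * ‖BT μ E η‖ ^ 2) ≤
      ∫⁻ p, ENNReal.ofReal (η * (am p.1 E η * am p.2 E η)) ∂(μ.prod μ) := by
  have hmeas : Measurable fun t : ℝ => ENNReal.ofReal (am t E η) := by
    unfold am
    fun_prop
  have h1 : ENNReal.ofReal ‖BT μ E η‖ ≤ ∫⁻ t, ENNReal.ofReal (am t E η) ∂μ := by
    rw [ofReal_norm_eq_enorm]
    unfold BT
    refine (enorm_integral_le_lintegral_enorm _).trans (le_of_eq ?_)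
    refine lintegral_congr fun t => ?_
    rw [← ofReal_norm_eq_enorm, am_eq t E hη]
  have h2 : ∫⁻ p, ENNReal.ofReal (η * (am p.1 E η * am p.2 E η)) ∂(μ.prod μ) =
      ENNReal.ofReal η * ((∫⁻ t, ENNReal.ofReal (am t E η) ∂μ) *
        (∫⁻ t, ENNReal.ofReal (am t E η) ∂μ)) := by
    have hm2 : Measurable fun z : ℝ × ℝ => ENNReal.ofReal (am z.1 E η) * ENNReal.ofReal (am z.2 E η) :=
      (hmeas.comp measurable_fst).mul (hmeas.comp measurable_snd)
    rw [← lintegral_prod_mul hmeas.aemeasurable hmeas.aemeasurable,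
      ← lintegral_const_mul _ hm2]
    refine lintegral_congr fun p => ?_
    rw [ENNReal.ofReal_mul hη.le, ENNReal.ofReal_mul (am_nonneg _ _ _)]
  rw [h2, ENNReal.ofReal_mul hη.le, sq, ENNReal.ofReal_mul (norm_nonneg _)]
  gcongr

/-- Wiener: the averaged square of the Borel transform of a measure without atoms tends to zero -/
theorem wiener (μ : Measure ℝ) [IsFiniteMeasure μ] (hμ : ∀ t : ℝ, μ {t} = 0)
    (η : ℕ → ℝ) (hη : ∀ k, 0 < η k) (hη0 : Tendsto η atTop (𝓝 0)) :
    Tendsto (fun k => ∫⁻ E : ℝ, ENNReal.ofReal (η k * ‖BT μ E (η k)‖ ^ 2)) atTop (𝓝 0) := by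
  refine tendsto_of_tendsto_of_tendsto_of_le_of_le tendsto_const_nhds
    (tendsto_KK μ hμ η hη hη0) (fun _ => bot_le) fun k => ?_
  calc ∫⁻ E : ℝ, ENNReal.ofReal (η k * ‖BT μ E (η k)‖ ^ 2)
      ≤ ∫⁻ E : ℝ, ∫⁻ p, ENNReal.ofReal (η k * (am p.1 E (η k) * am p.2 E (η k))) ∂(μ.prod μ) :=
        lintegral_mono fun E => norm_BT_sq_le μ E (hη k)
    _ = ∫⁻ p, KK (η k) p.1 p.2 ∂(μ.prod μ) := by
        rw [lintegral_lintegral_swap]
        · rfl
        · refine Measurable.aemeasurable ?_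
          unfold am Function.uncurry
          fun_prop

/-- total mass of the Poisson transform -/
theorem lintegral_poisson_eq {μ : Measure ℝ} [IsFiniteMeasure μ] {η : ℝ} (hη : 0 < η) :
    ∫⁻ E : ℝ, ENNReal.ofReal (∫ t, η / ((t - E) ^ 2 + η ^ 2) ∂μ) =
      ENNReal.ofReal Real.pi * μ Set.univ := by
  have h1 : ∀ E : ℝ, ENNReal.ofReal (∫ t, η / ((t - E) ^ 2 + η ^ 2) ∂μ) =
      ∫⁻ t, ENNReal.ofReal (η / ((t - E) ^ 2 + η ^ 2)) ∂μ := fun E =>
    ofReal_integral_eq_lintegral_ofReal (poisson_integrable E hη)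
      (ae_of_all _ fun t => poisson_nonneg E t hη)
  simp only [h1]
  rw [lintegral_lintegral_swap]
  · simp only [lintegral_poisson_one _ hη]
    rw [lintegral_const]
  · refine Measurable.aemeasurable ?_
    fun_prop

end P365L.Inf
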