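import Vale.Agent.P365.Bdl.B1

set_option linter.all false

/-!
# P365 INF: the rank one step in finite volume: absorption profile and fractional moments
-/

namespace P365L.Inf

open MeasureTheory Complex Filter Topology
open scoped ENNReal InnerProductSpace

variable {ι : Type*} [Fintype ι] [DecidableEq ι]
variable {A : Matrix ι ι ℝ} {γ : ℝ} {U : ι → ℝ} {ζ : ℂ}

/-- the column sums are bounded from below by the potential at the root -/
theorem one_le_col {W : ι → ℂ} (hA : A.IsSymm) (hW : ∀ x, (W x).im < 0) (o : ι)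
    (hdeg : ∑ y, A o y ^ 2 ≤ 4) :
    1 ≤ 2 * (4 + ‖W o‖ ^ 2) * ∑ y, ‖Gr A W y o‖ ^ 2 := by
  have h1 := Kmat_mulVec_Gr hA hW o o
  rw [if_pos rfl, Kmat_mulVec] at h1
  have h2 : ‖∑ y, (A o y : ℂ) * Gr A W y o‖ ^ 2 ≤ 4 * ∑ y, ‖Gr A W y o‖ ^ 2 := by
    have h3 : ‖∑ y, (A o y : ℂ) * Gr A W y o‖ ≤ ∑ y, |A o y| * ‖Gr A W y o‖ := by
      refine (norm_sum_le _ _).trans (Finset.sum_le_sum fun y _ => ?_)
      rw [norm_mul, Complex.norm_real, Real.norm_eq_abs]
    have h4 := Finset.sum_mul_sq_le_sq_mul_sq Finset.univ (fun y => |A o y|)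
      (fun y => ‖Gr A W y o‖)
    simp only [sq_abs] at h4
    calc ‖∑ y, (A o y : ℂ) * Gr A W y o‖ ^ 2 ≤ (∑ y, |A o y| * ‖Gr A W y o‖) ^ 2 :=
          pow_le_pow_left₀ (norm_nonneg _) h3 2
      _ ≤ (∑ y, A o y ^ 2) * ∑ y, ‖Gr A W y o‖ ^ 2 := h4
      _ ≤ 4 * ∑ y, ‖Gr A W y o‖ ^ 2 :=
          mul_le_mul_of_nonneg_right hdeg (Finset.sum_nonneg fun y _ => sq_nonneg _)
  have h3 : ‖W o * Gr A W o o‖ ^ 2 ≤ ‖W o‖ ^ 2 * ∑ y, ‖Gr A W y o‖ ^ 2 := by
    rw [norm_mul, mul_pow]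
    exact mul_le_mul_of_nonneg_left (Finset.single_le_sum (f := fun y => ‖Gr A W y o‖ ^ 2)
      (fun y _ => sq_nonneg _) (Finset.mem_univ o)) (sq_nonneg _)
  have h4 : (1 : ℝ) ≤ (‖∑ y, (A o y : ℂ) * Gr A W y o‖ + ‖W o * Gr A W o o‖) ^ 2 := by
    have h5 : (1 : ℝ) ≤ ‖∑ y, (A o y : ℂ) * Gr A W y o‖ + ‖W o * Gr A W o o‖ := by
      have := norm_add_le (∑ y, (A o y : ℂ) * Gr A W y o) (W o * Gr A W o o)
      rw [h1, norm_one] at this
      exact this
    nlinarith
  nlinarith [sq_nonneg (‖∑ y, (A o y : ℂ) * Gr A W y o‖ - ‖W o * Gr A W o o‖)]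

/-- the truncated sum -/
noncomputable def trunc (A : Matrix ι ι ℝ) (γ : ℝ) (U : ι → ℝ) (ζ : ℂ) (o : ι) (F : Finset ι)
    (c : ι → ℝ) : ℝ :=
  min 1 (2 * (4 + ‖Wt γ U ζ Finset.univ c o‖ ^ 2) *
    ∑ y ∈ F, ‖GT A γ U ζ Finset.univ c y o‖ ^ 2)

theorem trunc_nonneg (o : ι) (F : Finset ι) (c : ι → ℝ) : 0 ≤ trunc A γ U ζ o F c := by
  unfold trunc
  refine le_min zero_le_one ?_
  have : 0 ≤ ∑ y ∈ F, ‖GT A γ U ζ Finset.univ c y o‖ ^ 2 := Finset.sum_nonneg fun y _ => sq_nonneg _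
  positivity

theorem trunc_le_one (o : ι) (F : Finset ι) (c : ι → ℝ) : trunc A γ U ζ o F c ≤ 1 :=
  min_le_left _ _

theorem measurable_Wt (T : Finset ι) (o : ι) : Measurable fun c => Wt γ U ζ T c o := by
  unfold Wt
  by_cases hz : o ∈ T
  · simp only [if_pos hz]
    exact ((Complex.measurable_ofReal.comp (measurable_pi_apply o)).const_mul _).const_add _
      |>.sub_const _
  · simp only [if_neg hz]
    exact measurable_const

theorem measurable_trunc (o : ι) (F : Finset ι) : Measurable (trunc A γ U ζ o F) := by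
  unfold trunc
  refine measurable_const.min ?_
  refine Measurable.mul ?_ (Finset.measurable_sum _ fun y _ =>
    ((measurable_GT Finset.univ y o).norm.pow_const 2))
  exact (((measurable_Wt Finset.univ o).norm.pow_const 2).const_add _).const_mul _

theorem integrable_trunc (o : ι) (F : Finset ι) : Integrable (trunc A γ U ζ o F) (mu ι) := by
  refine Integrable.of_bound (measurable_trunc o F).aestronglyMeasurable 1
    (Eventually.of_forall fun c => ?_)
  rw [Real.norm_of_nonneg (trunc_nonneg o F c)]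
  exact trunc_le_one o F c

/-- **rank one step** -/
theorem rank_one (hA : A.IsSymm) (hγ : 0 < γ) (hζ : 0 < ζ.im) (o : ι)
    (hdeg : ∑ y, A o y ^ 2 ≤ 4) (F : Finset ι) :
    ∫ c, ζ.im * ∑ y ∈ F, ‖GT A γ U ζ Finset.univ c y o‖ ^ 2 ∂(mu ι) ≤
      1 / γ * ∫ c, trunc A γ U ζ o F c ∂(mu ι) := by
  set T : Finset ι := Finset.univ.erase o with hT
  have hoT : o ∉ T := Finset.notMem_erase o _
  have hins : insert o T = Finset.univ := Finset.insert_erase (Finset.mem_univ o)
  have hi1 : Integrable (fun c => ζ.im * ∑ y ∈ F, ‖GT A γ U ζ Finset.univ c y o‖ ^ 2) (mu ι) :=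
    (integrable_finset_sum _ fun y _ => integrable_norm_GT_pow hA hγ hζ Finset.univ y o 2).const_mul _
  have hi2 := integrable_trunc (A := A) (γ := γ) (U := U) (ζ := ζ) o F
  rw [integral_resample o _ hi1, integral_resample o _ hi2, ← integral_const_mul]
  refine integral_mono (integrable_inner o hi1) ((integrable_inner o hi2).const_mul _) fun c => ?_
  simp only
  -- notation
  set g : ℂ := GT A γ U ζ T c o o with hg
  have hgd : γ * ‖g‖ ^ 2 < g.im := GT_diag hA hγ hζ T c hoT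
  have hupd : ∀ (t : ℝ) (y : ι), GT A γ U ζ Finset.univ (Function.update c o t) y o =
      GT A γ U ζ T c y o * (1 - g * tz γ g t) := by
    intro t y
    have := GT_insert (U := U) hA hγ hζ T c hoT t y o
    rw [hins] at this
    rw [this]
    ring
  set S : ℝ := ∑ y, ‖GT A γ U ζ T c y o‖ ^ 2 with hS
  set SF : ℝ := ∑ y ∈ F, ‖GT A γ U ζ T c y o‖ ^ 2 with hSF
  have hS0 : 0 < S := by
    have h1 := one_le_col (W := Wt γ U ζ T c) hA (Wt_im_neg hγ hζ T c) o hdeg
    have h2 : 0 < 2 * (4 + ‖Wt γ U ζ T c o‖ ^ 2) := by positivity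
    by_contra h3
    push Not at h3
    have h4 : 2 * (4 + ‖Wt γ U ζ T c o‖ ^ 2) * S ≤ 0 := mul_nonpos_of_nonneg_of_nonpos h2.le h3
    have h5 : (1 : ℝ) ≤ 2 * (4 + ‖Wt γ U ζ T c o‖ ^ 2) * S := h1
    linarith
  have hSF0 : 0 ≤ SF := Finset.sum_nonneg fun y _ => sq_nonneg _
  have hSFS : SF ≤ S := Finset.sum_le_sum_of_subset_of_nonneg (Finset.subset_univ _)
    fun y _ _ => sq_nonneg _
  set r : ℝ := SF / S with hr
  have hr0 : 0 ≤ r := div_nonneg hSF0 hS0.le
  have hr1 : r ≤ 1 := (div_le_one hS0).2 hSFS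
  have hsum : ∀ (t : ℝ) (B : Finset ι),
      ∑ y ∈ B, ‖GT A γ U ζ Finset.univ (Function.update c o t) y o‖ ^ 2 =
        (∑ y ∈ B, ‖GT A γ U ζ T c y o‖ ^ 2) * ‖1 - g * tz γ g t‖ ^ 2 := by
    intro t B
    rw [Finset.sum_mul]
    refine Finset.sum_congr rfl fun y _ => ?_
    rw [hupd, norm_mul, mul_pow]
  have hratio : ∀ t : ℝ, ∑ y ∈ F, ‖GT A γ U ζ Finset.univ (Function.update c o t) y o‖ ^ 2 =
      r * ∑ y, ‖GT A γ U ζ Finset.univ (Function.update c o t) y o‖ ^ 2 := by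
    intro t
    rw [hsum, hsum, ← hS, ← hSF, hr]
    field_simp
  -- the flux identity for the revealed potential
  have hflux : ∀ t : ℝ, ζ.im * ∑ y, ‖GT A γ U ζ Finset.univ (Function.update c o t) y o‖ ^ 2 =
      (GT A γ U ζ Finset.univ (Function.update c o t) o o).im := by
    intro t
    have h1 := Gr_flux (W := Wt γ U ζ Finset.univ (Function.update c o t)) hA
      (Wt_im_neg hγ hζ _ _) o
    have h2 : (GT A γ U ζ Finset.univ (Function.update c o t) o o).im =
      ∑ y, (-(Wt γ U ζ Finset.univ (Function.update c o t) y).im) *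
        ‖GT A γ U ζ Finset.univ (Function.update c o t) y o‖ ^ 2 := h1
    rw [h2, Finset.mul_sum]
    refine Finset.sum_congr rfl fun y _ => ?_
    rw [Wt_im_mem _ _ (Finset.mem_univ y), neg_neg]
  have hlhs : ∫ t, ζ.im * ∑ y ∈ F, ‖GT A γ U ζ Finset.univ (Function.update c o t) y o‖ ^ 2 ∂nu =
      r * g.im := by
    have h1 : ∀ t : ℝ, ζ.im * ∑ y ∈ F, ‖GT A γ U ζ Finset.univ (Function.update c o t) y o‖ ^ 2 =
        r * (g.im - ((-I) * (g * g) * tz γ g t).re) := by
      intro t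
      rw [hratio t]
      have h2 := hflux t
      have h3 : ζ.im * (r * ∑ y, ‖GT A γ U ζ Finset.univ (Function.update c o t) y o‖ ^ 2) =
          r * (ζ.im * ∑ y, ‖GT A γ U ζ Finset.univ (Function.update c o t) y o‖ ^ 2) := by ring
      rw [h3, h2, hupd, ← hg]
      congr 1
      simp only [mul_re, mul_im, sub_re, sub_im, one_re, one_im, neg_re, neg_im, I_re, I_im]
      ring
    simp only [h1]
    rw [integral_const_mul, integral_sub (integrable_const _) (integrable_re_mul_tz hγ hgd _),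
      integral_re_mul_tz hγ hgd]
    simp
  rw [hlhs]
  have hgim : g.im ≤ 1 / γ := by
    have h1 : g.im ≤ ‖g‖ := (le_abs_self _).trans (Complex.abs_im_le_norm _)
    have h2 : 0 < ‖g‖ := norm_pos_iff.2 (cau_ne_zero hγ hgd)
    have h3 : γ * ‖g‖ ^ 2 ≤ ‖g‖ := hgd.le.trans h1
    have h4 : γ * ‖g‖ ≤ 1 := by
      have : (γ * ‖g‖) * ‖g‖ ≤ 1 * ‖g‖ := by nlinarith
      exact le_of_mul_le_mul_right this h2
    rw [le_div_iff₀ hγ]
    nlinarith
  have hrt : r ≤ ∫ t, trunc A γ U ζ o F (Function.update c o t) ∂nu := by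
    have h1 : ∀ t : ℝ, r ≤ trunc A γ U ζ o F (Function.update c o t) := by
      intro t
      unfold trunc
      refine le_min hr1 ?_
      have h2 := one_le_col (W := Wt γ U ζ Finset.univ (Function.update c o t)) hA
        (Wt_im_neg hγ hζ _ _) o hdeg
      have h3 := mul_le_mul_of_nonneg_left h2 hr0
      rw [mul_one] at h3
      refine h3.trans (le_of_eq ?_)
      have h4 := hratio t
      show r * (2 * (4 + ‖Wt γ U ζ Finset.univ (Function.update c o t) o‖ ^ 2) *
        ∑ y, ‖GT A γ U ζ Finset.univ (Function.update c o t) y o‖ ^ 2) = _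
      rw [h4]
      ring
    have h2 : Integrable (fun t => trunc A γ U ζ o F (Function.update c o t)) nu := by
      refine Integrable.of_bound ((measurable_trunc o F).comp
        (_root_.measurable_update c)).aestronglyMeasurable 1 (Eventually.of_forall fun t => ?_)
      rw [Real.norm_of_nonneg (trunc_nonneg o F _)]
      exact trunc_le_one o F _
    have h3 := integral_mono (integrable_const r) h2 h1
    simpa using h3
  calc r * g.im ≤ r * (1 / γ) := mul_le_mul_of_nonneg_left hgim hr0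
    _ = 1 / γ * r := mul_comm _ _
    _ ≤ 1 / γ * ∫ t, trunc A γ U ζ o F (Function.update c o t) ∂nu :=
        mul_le_mul_of_nonneg_left hrt (by positivity)

/-- elementary bound of the truncated sum by fractional powers -/
theorem min_one_le {K w s : ℝ} (hs0 : 0 < s) (hs1 : s ≤ 1) {α : Type*} (F : Finset α) (a : α → ℝ)
    (ha : ∀ y, 0 ≤ a y) (hw0 : 0 ≤ w) :
    min 1 (2 * (4 + w ^ 2) * ∑ y ∈ F, a y ^ 2) ≤
      (if w ≤ K then 0 else 1) + (2 * (4 + K ^ 2)) ^ (s / 2) * ∑ y ∈ F, a y ^ s := by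
  have hsum0 : 0 ≤ ∑ y ∈ F, a y ^ 2 := Finset.sum_nonneg fun y _ => sq_nonneg _
  have hsum1 : 0 ≤ ∑ y ∈ F, a y ^ s := Finset.sum_nonneg fun y _ => Real.rpow_nonneg (ha y) _
  by_cases h : w ≤ K
  · rw [if_pos h, zero_add]
    have hK : 0 ≤ K := hw0.trans h
    set X : ℝ := 2 * (4 + K ^ 2) * ∑ y ∈ F, a y ^ 2 with hX
    have hX0 : 0 ≤ X := by positivity
    have h1 : min 1 (2 * (4 + w ^ 2) * ∑ y ∈ F, a y ^ 2) ≤ min 1 X := by
      refine min_le_min le_rfl ?_
      have : w ^ 2 ≤ K ^ 2 := pow_le_pow_left₀ hw0 h 2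
      exact mul_le_mul_of_nonneg_right (by linarith) hsum0
    have h2 : min 1 X ≤ X ^ (s / 2) := by
      rcases le_total X 1 with hX1 | hX1
      · rw [min_eq_right hX1]
        have := Real.rpow_le_rpow_of_exponent_ge' hX0 hX1 (by positivity : (0:ℝ) ≤ s / 2)
          (by linarith : s / 2 ≤ 1)
        rwa [Real.rpow_one] at this
      · rw [min_eq_left hX1]
        exact Real.one_le_rpow hX1 (by positivity)
    have h3 : (∑ y ∈ F, a y ^ 2) ^ (s / 2) ≤ ∑ y ∈ F, a y ^ s := by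
      have h4 : (∑ y ∈ F, a y ^ 2) ^ (s / 2) ≤ ∑ y ∈ F, (a y ^ 2) ^ (s / 2) := by
        clear h1 h2 hX0 hX X hsum0 hsum1
        classical
        induction F using Finset.induction_on with
        | empty => simp [Real.zero_rpow (by positivity : s / 2 ≠ 0)]
        | insert b B hb ih =>
          rw [Finset.sum_insert hb, Finset.sum_insert hb]
          refine (Real.rpow_add_le_add_rpow (sq_nonneg _) (Finset.sum_nonneg fun y _ => sq_nonneg _)
            (by positivity) (by linarith)).trans ?_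
          linarith
      refine h4.trans (le_of_eq ?_)
      refine Finset.sum_congr rfl fun y _ => ?_
      rw [← Real.rpow_natCast (a y) 2, ← Real.rpow_mul (ha y)]
      congr 1
      push_cast
      ring
    calc min 1 (2 * (4 + w ^ 2) * ∑ y ∈ F, a y ^ 2) ≤ X ^ (s / 2) := h1.trans h2
      _ = (2 * (4 + K ^ 2)) ^ (s / 2) * (∑ y ∈ F, a y ^ 2) ^ (s / 2) :=
          Real.mul_rpow (by positivity) hsum0
      _ ≤ _ := mul_le_mul_of_nonneg_left h3 (Real.rpow_nonneg (by positivity) _)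
  · rw [if_neg h]
    have : 0 ≤ (2 * (4 + K ^ 2)) ^ (s / 2) * ∑ y ∈ F, a y ^ s :=
      mul_nonneg (Real.rpow_nonneg (by positivity) _) hsum1
    linarith [min_le_left 1 (2 * (4 + w ^ 2) * ∑ y ∈ F, a y ^ 2)]

end P365L.Inf
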