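import Vale.Agent.P365.Inf.Main

set_option linter.all false

/-!
# P365 INF: the almost sure statement
-/

namespace P365L.Inf

open MeasureTheory ProbabilityTheory Complex Filter Topology
open scoped ENNReal InnerProductSpace

/-- the energies of modulus larger than `N` carry little mass -/
theorem energy_tail_measure (μ : Measure ℝ) [IsFiniteMeasure μ] {ε : ℝ≥0∞} (hε : ε ≠ 0) :
    ∃ N : ℕ, ∀ η : ℝ, 0 < η → η ≤ 1 →
      ∫⁻ E in {E : ℝ | (N : ℝ) < |E|}, ENNReal.ofReal (∫ t, η / ((t - E) ^ 2 + η ^ 2) ∂μ) ≤ ε := by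
  set S : ℕ → Set ℝ := fun N => {E : ℝ | (N : ℝ) < |E|} with hS
  have hSm : ∀ N, MeasurableSet (S N) := fun N =>
    measurableSet_lt measurable_const measurable_norm
  have hmono : Antitone S := by
    intro a b hab E hE
    have : (a : ℝ) ≤ b := by exact_mod_cast hab
    exact lt_of_le_of_lt this hE
  have hempty : ⋂ N, S N = ∅ := by
    rw [Set.eq_empty_iff_forall_notMem]
    intro E hE
    obtain ⟨n, hn⟩ := exists_nat_gt |E|
    exact absurd (Set.mem_iInter.1 hE n) (not_lt.2 hn.le)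
  -- the two tails
  set ρ : Measure ℝ := volume.withDensity fun E => ENNReal.ofReal (8 / (1 + E ^ 2)) with hρ
  have hρfin : ρ Set.univ ≠ ∞ := by
    rw [hρ, withDensity_apply _ MeasurableSet.univ, Measure.restrict_univ]
    have h1 : Integrable (fun E : ℝ => 8 / (1 + E ^ 2)) := by
      have := integrable_inv_one_add_sq.const_mul 8
      refine this.congr (Eventually.of_forall fun E => ?_)
      simp [div_eq_mul_inv]
    rw [← ofReal_integral_eq_lintegral_ofReal h1 (Eventually.of_forall fun E => by positivity)]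
    exact ENNReal.ofReal_ne_top
  have t1 : Tendsto (fun N => ρ (S N)) atTop (𝓝 0) := by
    have h := tendsto_measure_iInter_atTop (μ := ρ) (s := S)
      (fun n => (hSm n).nullMeasurableSet) hmono
      ⟨0, ne_top_of_le_ne_top hρfin (measure_mono (Set.subset_univ _))⟩
    rwa [hempty, measure_empty] at h
  have t2 : Tendsto (fun N => μ (S N)) atTop (𝓝 0) := by
    have h := tendsto_measure_iInter_atTop (μ := μ) (s := S)
      (fun n => (hSm n).nullMeasurableSet) hmono ⟨0, measure_ne_top _ _⟩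
    rwa [hempty, measure_empty] at h
  have t3 : Tendsto (fun N : ℕ => ENNReal.ofReal Real.pi * μ (S N) +
      ρ (S (2 * N + 1)) * μ Set.univ) atTop (𝓝 0) := by
    have hsub : Tendsto (fun N : ℕ => 2 * N + 1) atTop atTop :=
      tendsto_atTop_mono (fun n : ℕ => (by omega : n ≤ 2 * n + 1)) tendsto_id
    have h1 := ENNReal.Tendsto.const_mul (a := ENNReal.ofReal Real.pi) t2
      (Or.inr ENNReal.ofReal_ne_top)
    have h2 := ENNReal.Tendsto.mul_const (b := μ Set.univ) (t1.comp hsub)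
      (Or.inr (measure_ne_top _ _))
    have h3 := h1.add h2
    simpa using h3
  obtain ⟨N, hN⟩ := (t3.eventually (gt_mem_nhds (pos_iff_ne_zero.2 hε))).exists
  refine ⟨2 * N + 1, fun η hη hη1 => ?_⟩
  refine le_trans ?_ hN.le
  have h1 : ∀ E : ℝ, ENNReal.ofReal (∫ t, η / ((t - E) ^ 2 + η ^ 2) ∂μ) =
      ∫⁻ t, ENNReal.ofReal (η / ((t - E) ^ 2 + η ^ 2)) ∂μ := fun E =>
    ofReal_integral_eq_lintegral_ofReal (poisson_integrable E hη)
      (ae_of_all _ fun t => poisson_nonneg E t hη)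
  simp only [h1]
  rw [lintegral_lintegral_swap (by
    refine Measurable.aemeasurable ?_
    fun_prop)]
  have hpt : ∀ t : ℝ, ∫⁻ E in S (2 * N + 1), ENNReal.ofReal (η / ((t - E) ^ 2 + η ^ 2)) ≤
      (S N).indicator (fun _ => ENNReal.ofReal Real.pi) t + ρ (S (2 * N + 1)) := by
    intro t
    by_cases ht : t ∈ S N
    · rw [Set.indicator_of_mem ht]
      refine le_trans ?_ le_self_add
      rw [← lintegral_poisson_one t hη]
      exact setLIntegral_le_lintegral _ _
    · rw [Set.indicator_of_notMem ht, zero_add, hρ, withDensity_apply _ (hSm _)]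
      refine setLIntegral_mono (by fun_prop) fun E hE => ENNReal.ofReal_le_ofReal ?_
      have ht' : |t| ≤ N := not_lt.1 ht
      have hE' : ((2 * N + 1 : ℕ) : ℝ) < |E| := hE
      push_cast at hE'
      have h2 : |E| / 2 ≤ |t - E| := by
        have h3 : |E| - |t| ≤ |t - E| := by
          rw [abs_sub_comm]
          exact abs_sub_abs_le_abs_sub E t
        have : (0 : ℝ) ≤ N := Nat.cast_nonneg N
        linarith
      have h4 : E ^ 2 / 4 ≤ (t - E) ^ 2 := by
        have := pow_le_pow_left₀ (by positivity) h2 2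
        rw [sq_abs, div_pow, sq_abs] at this
        linarith
      have h5 : 1 ≤ E ^ 2 := by
        have h6 : 1 ≤ |E| := by
          have : (0 : ℝ) ≤ N := Nat.cast_nonneg N
          linarith
        have := pow_le_pow_left₀ zero_le_one h6 2
        rwa [one_pow, sq_abs] at this
      rw [div_le_div_iff₀ (by positivity) (by positivity)]
      nlinarith [sq_nonneg η]
  calc ∫⁻ t, (∫⁻ E in S (2 * N + 1), ENNReal.ofReal (η / ((t - E) ^ 2 + η ^ 2))) ∂μ
      ≤ ∫⁻ t, ((S N).indicator (fun _ => ENNReal.ofReal Real.pi) t + ρ (S (2 * N + 1))) ∂μ :=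
        lintegral_mono hpt
    _ = ENNReal.ofReal Real.pi * μ (S N) + ρ (S (2 * N + 1)) * μ Set.univ := by
        rw [lintegral_add_left (measurable_const.indicator (hSm N)),
          lintegral_indicator_const (hSm N), lintegral_const]

theorem energy_tail (V : Site → ℝ) (ψ : L2) {ε : ℝ} (hε : 0 < ε) :
    ∃ N : ℕ, ∀ η : ℝ, 0 < η → η ≤ 1 →
      ∫⁻ E in {E : ℝ | (N : ℝ) < |E|}, ENNReal.ofReal (η * ‖Res V (E + η * I) ψ‖ ^ 2) ≤
        ENNReal.ofReal ε := by
  obtain ⟨μ, hμ, hmass⟩ := exists_spectralMeasure V ψ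
  have := hμ.finite
  obtain ⟨N, hN⟩ := energy_tail_measure μ (ε := ENNReal.ofReal ε) (by simpa using hε)
  refine ⟨N, fun η hη hη1 => ?_⟩
  refine le_trans (le_of_eq ?_) (hN η hη hη1)
  refine lintegral_congr fun E => ?_
  rw [poisson_eq hμ E hη (res_spec V (hz_im E hη) ψ)]

/-- deterministic criterion on bounded energy windows -/
theorem EE_eq_top' (V : Site → ℝ) (η : ℕ → ℝ) (hη : ∀ k, 0 < η k) (hη1 : ∀ k, η k ≤ 1)
    (hη0 : Tendsto η atTop (𝓝 0))
    (h : ∀ x : Site, ∀ N : ℕ, ∀ ε : ℝ, 0 < ε → ∃ R : ℕ, ∃ᶠ k in atTop,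
      ∫⁻ E in {E : ℝ | |E| ≤ (N : ℝ)},
        ENNReal.ofReal (η k * tail (ball x R) (Res V (E + η k * I) (dl x))) ≤
          ENNReal.ofReal ε) : EE V = ⊤ := by
  refine EE_eq_top V η hη hη0 fun x ε hε => ?_
  obtain ⟨N, hN⟩ := energy_tail V (dl x) (half_pos hε)
  obtain ⟨R, hR⟩ := h x N (ε / 2) (half_pos hε)
  refine ⟨ball x R, hR.mono fun k hk => ?_⟩
  have hm : MeasurableSet {E : ℝ | |E| ≤ (N : ℝ)} := measurableSet_le measurable_norm measurable_const
  rw [← lintegral_add_compl _ hm]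
  have hcompl : {E : ℝ | |E| ≤ (N : ℝ)}ᶜ = {E : ℝ | (N : ℝ) < |E|} := by
    ext E
    simp
  rw [hcompl]
  have h2 : ∫⁻ E in {E : ℝ | (N : ℝ) < |E|},
      ENNReal.ofReal (η k * tail (ball x R) (Res V (E + η k * I) (dl x))) ≤
        ENNReal.ofReal (ε / 2) := by
    refine le_trans (lintegral_mono fun E => ENNReal.ofReal_le_ofReal ?_) (hN (η k) (hη k) (hη1 k))
    refine mul_le_mul_of_nonneg_left ?_ (hη k).le
    unfold tail
    have : 0 ≤ ∑ y ∈ ball x R, ‖(Res V (E + η k * I) (dl x)) y‖ ^ 2 :=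
      Finset.sum_nonneg fun y _ => sq_nonneg _
    linarith
  calc _ ≤ ENNReal.ofReal (ε / 2) + ENNReal.ofReal (ε / 2) := add_le_add hk h2
    _ = ENNReal.ofReal ε := by
      rw [← ENNReal.ofReal_add (by positivity) (by positivity), add_halves]

variable {Ω : Type*} [MeasurableSpace Ω] {P : Measure Ω} [IsProbabilityMeasure P]
variable {γ : ℝ} {U c : Site → Ω → ℝ}

/-- the almost sure smallness on a window, along the sequence `1/(k+1)` -/
theorem ae_window (hγ : 0 < γ) (hs : Setup P U c) (x : Site)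
    (hFM : ∀ E : ℝ, FM P (fun ω => shift x (pot γ U c ω)) E) (N : ℕ)
    (η : ℕ → ℝ) (hη : ∀ k, 0 < η k) (hη0 : Tendsto η atTop (𝓝 0)) :
    ∀ᵐ ω ∂P, ∀ ε : ℝ, 0 < ε → ∃ R : ℕ, ∃ᶠ k in atTop,
      ∫⁻ E in {E : ℝ | |E| ≤ (N : ℝ)},
        ENNReal.ofReal (η k * tail (ball x R) (Res (pot γ U c ω) (E + η k * I) (dl x))) ≤
          ENNReal.ofReal ε := by
  set W : Measure ℝ := volume.restrict {E : ℝ | |E| ≤ (N : ℝ)} with hW
  have hWfin : IsFiniteMeasure W := by
    refine ⟨?_⟩
    rw [hW, Measure.restrict_apply_univ]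
    have : {E : ℝ | |E| ≤ (N : ℝ)} = Set.Icc (-(N : ℝ)) N := by
      ext E
      exact abs_le (G := ℝ)
    rw [this]
    simp
  set X : ℕ → ℕ → Ω × ℝ → ℝ≥0∞ := fun R k p =>
    ENNReal.ofReal (η k * tail (ball x R) (Res (pot γ U c p.1) (p.2 + η k * I) (dl x))) with hX
  have hXm : ∀ R k, Measurable (X R k) := by
    intro R k
    have h1 := measurable_tail (fun p : Ω × ℝ => pot γ U c p.1) (fun p => (p.2 : ℂ) + η k * I)
      (fun y => (measurable_pot hs y).comp measurable_fst)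
      ((Complex.measurable_ofReal.comp measurable_snd).add_const _)
      (fun p => hz_im p.2 (hη k)) x R
    have h2 : ∀ p : Ω × ℝ, ((p.2 : ℂ) + η k * I).im = η k := fun p => by simp
    simp only [h2] at h1
    exact h1.ennreal_ofReal
  set J : ℕ → ℕ → ℝ → ℝ≥0∞ := fun R k E => ∫⁻ ω, X R k (ω, E) ∂P with hJ
  have hJm : ∀ R k, Measurable (J R k) := fun R k => (hXm R k).lintegral_prod_left'
  have hJle : ∀ R k E, J R k E ≤ ENNReal.ofReal (1 / γ) := by
    intro R k E
    have h1 := mean_le hγ hs x (hz_im E (hη k)) R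
    have h2 : ((E : ℂ) + η k * I).im = η k := by simp
    rw [h2] at h1
    exact h1
  set L : ℕ → ℝ → ℝ≥0∞ := fun R E => limsup (fun k => J R k E) atTop with hL
  have hLm : ∀ R, Measurable (L R) := fun R => Measurable.limsup (hJm R)
  have hLle : ∀ R E, L R E ≤ ENNReal.ofReal (1 / γ) := fun R E =>
    limsup_le_of_le (by isBoundedDefault) (Eventually.of_forall fun k => hJle R k E)
  have hL0 : ∀ E, Tendsto (fun R => L R E) atTop (𝓝 0) := by
    intro E
    rw [ENNReal.tendsto_nhds_zero]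
    intro ε hε
    by_cases hεt : ε = ∞
    · exact Eventually.of_forall fun R => by rw [hεt]; exact le_top
    have hε' : 0 < ε.toReal := ENNReal.toReal_pos hε.ne' hεt
    obtain ⟨R₀, η₀, hη₀, H⟩ := tail_small hγ hs x E (hFM E) hε'
    filter_upwards [eventually_ge_atTop R₀] with R hR
    refine limsup_le_of_le (by isBoundedDefault) ?_
    filter_upwards [hη0.eventually (gt_mem_nhds hη₀)] with k hk
    have := H R hR (η k) (hη k) hk.le
    rwa [ENNReal.ofReal_toReal hεt] at this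
  have hb : Tendsto (fun R => ∫⁻ E, L R E ∂W) atTop (𝓝 0) := by
    have h0 : ∫⁻ E, (0 : ℝ≥0∞) ∂W = 0 := lintegral_zero
    rw [← h0]
    refine tendsto_lintegral_of_dominated_convergence (fun _ => ENNReal.ofReal (1 / γ)) hLm
      (fun R => ae_of_all _ fun E => hLle R E) ?_ (ae_of_all _ fun E => hL0 E)
    rw [lintegral_const]
    exact ENNReal.mul_ne_top ENNReal.ofReal_ne_top (measure_ne_top _ _)
  set Y : ℕ → Ω → ℝ≥0∞ := fun R ω => liminf (fun k => ∫⁻ E, X R k (ω, E) ∂W) atTop with hY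
  have hIm : ∀ R k, Measurable fun ω => ∫⁻ E, X R k (ω, E) ∂W := fun R k =>
    (hXm R k).lintegral_prod_right'
  have hYm : ∀ R, Measurable (Y R) := fun R => Measurable.liminf (hIm R)
  have hYle : ∀ R, ∫⁻ ω, Y R ω ∂P ≤ ∫⁻ E, L R E ∂W := by
    intro R
    have h1 : ∫⁻ ω, Y R ω ∂P ≤ liminf (fun k => ∫⁻ ω, ∫⁻ E, X R k (ω, E) ∂W ∂P) atTop :=
      lintegral_liminf_le (hIm R)
    have h2 : ∀ k, ∫⁻ ω, ∫⁻ E, X R k (ω, E) ∂W ∂P = ∫⁻ E, J R k E ∂W := by
      intro k
      rw [lintegral_lintegral_swap (hXm R k).aemeasurable]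
    simp only [h2] at h1
    refine h1.trans ?_
    refine (liminf_le_limsup (by isBoundedDefault) (by isBoundedDefault)).trans ?_
    refine limsup_lintegral_le (fun _ => ENNReal.ofReal (1 / γ)) (hJm R)
      (fun k => ae_of_all _ fun E => hJle R k E) ?_
    rw [lintegral_const]
    exact ENNReal.mul_ne_top ENNReal.ofReal_ne_top (measure_ne_top _ _)
  have hZ : ∫⁻ ω, ⨅ R, Y R ω ∂P = 0 := by
    refine le_antisymm ?_ bot_le
    refine ge_of_tendsto' hb fun R => ?_
    exact (lintegral_mono fun ω => iInf_le _ R).trans (hYle R)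
  have hZ0 : ∀ᵐ ω ∂P, ⨅ R, Y R ω = 0 := (lintegral_eq_zero_iff (Measurable.iInf hYm)).1 hZ
  filter_upwards [hZ0] with ω hω ε hε
  have h1 : ⨅ R, Y R ω < ENNReal.ofReal ε := by
    rw [hω]
    simpa using hε
  obtain ⟨R, hR⟩ := iInf_lt_iff.1 h1
  refine ⟨R, ?_⟩
  have h2 : ∃ᶠ k in atTop, ∫⁻ E, X R k (ω, E) ∂W < ENNReal.ofReal ε :=
    frequently_lt_of_liminf_lt (by isBoundedDefault) hR
  exact h2.mono fun k hk => hk.le

/-- **Main theorem of the block INF.** If the fractional moments of the finite volume Green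
functions decay exponentially at every energy (around every site), then almost surely the
eigenvectors of `Δ + U + γ c` span a dense subspace of `ℓ²(ℤ²)`: pure point spectrum. -/
theorem pure_point (hγ : 0 < γ) (hs : Setup P U c)
    (hFM : ∀ (x : Site) (E : ℝ), FM P (fun ω => shift x (pot γ U c ω)) E) :
    ∀ᵐ ω ∂P, EE (pot γ U c ω) = ⊤ := by
  set η : ℕ → ℝ := fun k => 1 / ((k : ℝ) + 1) with hηdef
  have hη : ∀ k, 0 < η k := fun k => by simp only [hηdef]; positivity
  have hη1 : ∀ k, η k ≤ 1 := by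
    intro k
    simp only [hηdef]
    rw [div_le_one (by positivity)]
    have : (0 : ℝ) ≤ k := Nat.cast_nonneg k
    linarith
  have hη0 : Tendsto η atTop (𝓝 0) := tendsto_one_div_add_atTop_nhds_zero_nat
  have h1 : ∀ᵐ ω ∂P, ∀ x : Site, ∀ N : ℕ, ∀ ε : ℝ, 0 < ε → ∃ R : ℕ, ∃ᶠ k in atTop,
      ∫⁻ E in {E : ℝ | |E| ≤ (N : ℝ)},
        ENNReal.ofReal (η k * tail (ball x R) (Res (pot γ U c ω) (E + η k * I) (dl x))) ≤
          ENNReal.ofReal ε := by
    rw [ae_all_iff]
    intro x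
    rw [ae_all_iff]
    intro N
    exact ae_window hγ hs x (hFM x) N η hη hη0
  filter_upwards [h1] with ω hω
  exact EE_eq_top' _ η hη hη1 hη0 hω

end P365L.Inf
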