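import Vale.Agent.P365.Inf.Pure
import Vale.Agent.P365.Inf.Fin

set_option linter.all false

/-!
# P365 INF: infinite volume limit of the columns of the Green matrix
-/

namespace P365L.Inf

open MeasureTheory Complex Filter Topology
open scoped ENNReal InnerProductSpace

variable {V : Site → ℝ} {z : ℂ}

/-- entry of the column of the root, extended by zero -/
noncomputable def GVs (M : ℕ) (V : Site → ℝ) (z : ℂ) (y : Site) : ℂ :=
  ex (fun y' : Lam M => GV M V z y' (oL M)) y

theorem GVs_coe (M : ℕ) (V : Site → ℝ) (z : ℂ) (y : Lam M) :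
    GVs M V z y = GV M V z y (oL M) := ex_coe _ _

theorem GVs_out (M : ℕ) (V : Site → ℝ) (z : ℂ) {y : Site} (h : y ∉ Lam M) :
    GVs M V z y = 0 := ex_out _ h

/-- finite volume approximation of the columns of the Green function at a general point -/
theorem tendsto_GVs (hz : 0 < z.im) (x y₀ : Site) {u : L2} (hu : IsResolvent V z (dl x) u) :
    Tendsto (fun L => GVs L (shift x V) z y₀) atTop (𝓝 (u (x + y₀))) := by
  set v : Site → ℂ := fun y => u (x + y) with hv
  have heq : ∀ y, hop v y + ((shift x V y : ℂ) - z) * v y = if y = 0 then 1 else 0 := by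
    intro y
    have h1 := hu (x + y)
    rw [dl_apply] at h1
    have h2 : hop v y = hop (fun y => u y) (x + y) := by
      unfold hop
      simp only [hv]
      have e1 : x + (y.1 + 1, y.2) = ((x + y).1 + 1, (x + y).2) :=
        Prod.ext (by simp [add_assoc]) rfl
      have e2 : x + (y.1 - 1, y.2) = ((x + y).1 - 1, (x + y).2) :=
        Prod.ext (by simp only [Prod.fst_add, add_sub_assoc]) rfl
      have e3 : x + (y.1, y.2 + 1) = ((x + y).1, (x + y).2 + 1) :=
        Prod.ext rfl (by simp [add_assoc])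
      have e4 : x + (y.1, y.2 - 1) = ((x + y).1, (x + y).2 - 1) :=
        Prod.ext rfl (by simp only [Prod.snd_add, add_sub_assoc])
      rw [e1, e2, e3, e4]
    have h3 : (if x + y = x then (1 : ℂ) else 0) = if y = 0 then 1 else 0 := by
      by_cases h : y = 0 <;> simp [h]
    rw [h2, ← h3]
    exact h1
  have hsv : Summable fun y : Site => ‖v y‖ ^ 2 :=
    ((Equiv.addLeft x).summable_iff (f := fun y : Site => ‖u y‖ ^ 2)).2 (summable_sq u)
  set T : ℕ → ℝ := fun L => (∑' y, ‖v y‖ ^ 2) - ∑ y ∈ Lam L, ‖v y‖ ^ 2 with hT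
  have hT0 : Tendsto T atTop (𝓝 0) := by
    have h1 := (hsv.hasSum.comp Lam_tendsto).const_sub (∑' y, ‖v y‖ ^ 2)
    rw [sub_self] at h1
    exact h1
  set w : ℕ → Site → ℂ := fun L y => if y ∈ Lam L then 0 else v y with hw
  have hwT : ∀ L (F : Finset Site), ∑ y ∈ F, ‖w L y‖ ^ 2 ≤ T L := by
    intro L F
    have h1 : ∑ y ∈ F, ‖w L y‖ ^ 2 = ∑ y ∈ F.filter (fun y => y ∉ Lam L), ‖v y‖ ^ 2 := by
      rw [Finset.sum_filter]
      refine Finset.sum_congr rfl fun y _ => ?_
      simp only [hw]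
      by_cases h : y ∈ Lam L <;> simp [h]
    have h2 : Disjoint (F.filter (fun y => y ∉ Lam L)) (Lam L) :=
      Finset.disjoint_left.2 fun y hy => (Finset.mem_filter.1 hy).2
    have h3 := Finset.sum_union (f := fun y => ‖v y‖ ^ 2) h2
    have h4 := hsv.sum_le_tsum (F.filter (fun y => y ∉ Lam L) ∪ Lam L) fun y _ => by (clear * -; positivity)
    simp only [hT]
    rw [h1]
    linarith
  have hmain : ∀ L, y₀ ∈ Lam L → ‖GVs L (shift x V) z y₀ - u (x + y₀)‖ ^ 2 ≤
      1 / z.im ^ 2 * (16 * T L) := by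
    intro L hy₀
    set b : Lam L → ℂ := fun y => hop (w L) y with hb
    have h1 : (Kmat (AL L) fun y => (shift x V y : ℂ) - z).mulVec (fun y : Lam L => v y) =
        Pi.single (oL L) 1 - b := by
      funext y
      rw [Kmat_mulVec_R]
      have h2 : ∑ y' : Lam L, ((AL L y y' : ℝ) : ℂ) * v y' = hop (ex fun y : Lam L => v y) y :=
        sum_adj (fun y : Lam L => v y) y
      rw [h2, Pi.sub_apply]
      have h3 : hop (ex fun y : Lam L => v y) y = hop v y - b y := by
        have h4 : ∀ y', ex (fun y : Lam L => v y) y' = v y' - w L y' := by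
          intro y'
          unfold ex
          simp only [hw]
          by_cases h : y' ∈ Lam L <;> simp [h]
        simp only [hb]
        unfold hop
        rw [h4, h4, h4, h4]
        ring
      have h5 : (Pi.single (oL L) (1 : ℂ) : Lam L → ℂ) y = if (y : Site) = 0 then 1 else 0 := by
        by_cases h : (y : Site) = 0
        · have h' : y = oL L := Subtype.ext h
          rw [if_pos h, h', Pi.single_eq_same]
        · have h' : y ≠ oL L := fun h' => h (by rw [h']; rfl)
          rw [if_neg h, Pi.single_eq_of_ne h']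
      rw [h3, h5, ← heq y]
      ring
    have h2 := congrFun (GV_inj L (shift x V) hz fun y : Lam L => v y) ⟨y₀, hy₀⟩
    rw [h1, Matrix.mulVec_sub, Pi.sub_apply, Matrix.mulVec_single_one] at h2
    have h4 : GVs L (shift x V) z y₀ - u (x + y₀) =
        (GV L (shift x V) z).mulVec b ⟨y₀, hy₀⟩ := by
      have h5 : GV L (shift x V) z ⟨y₀, hy₀⟩ (oL L) -
          (GV L (shift x V) z).mulVec b ⟨y₀, hy₀⟩ = v y₀ := h2
      have h6 : GVs L (shift x V) z y₀ = GV L (shift x V) z ⟨y₀, hy₀⟩ (oL L) :=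
        GVs_coe L (shift x V) z ⟨y₀, hy₀⟩
      rw [h6]
      have h7 : v y₀ = u (x + y₀) := rfl
      rw [← h7, ← h5]
      ring
    rw [h4]
    have h6 := solve_le (AL_symm L) hz (fun y => (im_pot (shift x V) z y).le)
      (GV_solve L (shift x V) hz b)
    have h7 : ‖(GV L (shift x V) z).mulVec b ⟨y₀, hy₀⟩‖ ^ 2 ≤
        ∑ y, ‖(GV L (shift x V) z).mulVec b y‖ ^ 2 :=
      Finset.single_le_sum (f := fun y => ‖(GV L (shift x V) z).mulVec b y‖ ^ 2)
        (fun y _ => by (clear * -; positivity)) (Finset.mem_univ (⟨y₀, hy₀⟩ : Lam L))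
    have h8 : ∑ y, ‖b y‖ ^ 2 ≤ 16 * T L := by
      have h9 := sum_hop_sq (hwT L) (Lam L)
      rw [← Finset.sum_coe_sort (Lam L) fun y => ‖hop (w L) y‖ ^ 2] at h9
      exact h9
    have h10 : 1 / z.im ^ 2 * ∑ y, ‖b y‖ ^ 2 ≤ 1 / z.im ^ 2 * (16 * T L) :=
      mul_le_mul_of_nonneg_left h8 (by positivity)
    exact h7.trans (h6.trans h10)
  have hev : ∀ᶠ L in atTop, y₀ ∈ Lam L :=
    (eventually_ge_atTop (y₀.1.natAbs + y₀.2.natAbs)).mono fun L hL => (mem_Lam L y₀).2 hL
  have h0 : Tendsto (fun L => ‖GVs L (shift x V) z y₀ - u (x + y₀)‖ ^ 2) atTop (𝓝 0) := by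
    have hlim : Tendsto (fun L => 1 / z.im ^ 2 * (16 * T L)) atTop (𝓝 0) := by
      have := (hT0.const_mul 16).const_mul (1 / z.im ^ 2)
      simpa only [one_div, mul_zero] using this
    exact tendsto_of_tendsto_of_tendsto_of_le_of_le' tendsto_const_nhds hlim
      (Eventually.of_forall fun L => by (clear * -; positivity)) (hev.mono fun L hL => hmain L hL)
  rw [tendsto_iff_norm_sub_tendsto_zero]
  have h1 := h0.sqrt
  simpa only [norm_nonneg, Real.sqrt_sq, Real.sqrt_zero] using h1

/-- degree bound in the box -/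
theorem AL_deg (L : ℕ) (x : Lam L) : ∑ y, AL L x y ^ 2 ≤ 4 := by
  have h1 := (planar_box L).deg x
  refine le_trans (Finset.sum_le_sum fun y _ => ?_) h1
  rcases (planar_box L).zero_one x y with h | h <;> rw [h] <;> norm_num

end P365L.Inf
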