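import Vale.Agent.P365.Inf.Prob

set_option linter.all false

/-!
# P365 INF: fractional moment decay in finite volume implies pure point spectrum
-/

namespace P365L.Inf

open MeasureTheory ProbabilityTheory Complex Filter Topology
open scoped ENNReal InnerProductSpace

variable {Ω : Type*} [MeasurableSpace Ω] {P : Measure Ω} [IsProbabilityMeasure P]
variable {γ : ℝ} {U c : Site → Ω → ℝ}

/-- the `ℓ¹` norm of a site -/
def n1 (y : Site) : ℕ := y.1.natAbs + y.2.natAbs

/-- fractional moment decay at the energy `E`, in finite volume, for the column of the root -/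
def FM (P : Measure Ω) (V : Ω → Site → ℝ) (E : ℝ) : Prop :=
  ∃ s C c₀ η₀ : ℝ, 0 < s ∧ s ≤ 1 ∧ 0 < c₀ ∧ 0 < η₀ ∧ ∀ η : ℝ, 0 < η → η ≤ η₀ → ∀ y : Site,
    ∀ᶠ M in atTop, ∫⁻ ω, ENNReal.ofReal (‖GVs M (V ω) (E + η * I) y‖ ^ s) ∂P ≤
      ENNReal.ofReal (C * Real.exp (-c₀ * n1 y))

/-- translate of a ball -/
noncomputable def ball (x : Site) (R : ℕ) : Finset Site := (Lam R).map (addLeftEmbedding x)

theorem sum_ball (x : Site) (R : ℕ) (f : Site → ℝ) :
    ∑ y ∈ ball x R, f y = ∑ y ∈ Lam R, f (x + y) := by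
  unfold ball
  rw [Finset.sum_map]
  rfl

theorem Lam_mono {R R' : ℕ} (h : R ≤ R') : Lam R ⊆ Lam R' := by
  intro y hy
  rw [mem_Lam] at hy ⊢
  exact hy.trans h

theorem tail_anti (x : Site) (u : L2) {R R' : ℕ} (h : R ≤ R') :
    tail (ball x R') u ≤ tail (ball x R) u := by
  unfold tail
  rw [sum_ball, sum_ball]
  have := Finset.sum_le_sum_of_subset_of_nonneg (f := fun y => ‖u (x + y)‖ ^ 2) (Lam_mono h)
    fun y _ _ => sq_nonneg _
  linarith

/-- the tail is the limit of the finite sums -/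
theorem tendsto_tail (x : Site) (u : L2) (R : ℕ) :
    Tendsto (fun n => ∑ y ∈ Lam n \ Lam R, ‖u (x + y)‖ ^ 2) atTop (𝓝 (tail (ball x R) u)) := by
  have h1 : HasSum (fun y : Site => ‖u (x + y)‖ ^ 2) (‖u‖ ^ 2) :=
    ((Equiv.addLeft x).hasSum_iff (f := fun y : Site => ‖u y‖ ^ 2)).2 (L2_hasSum_sq u)
  have h2 : Tendsto (fun n => ∑ y ∈ Lam n, ‖u (x + y)‖ ^ 2) atTop (𝓝 (‖u‖ ^ 2)) :=
    h1.comp Lam_tendsto
  unfold tail
  rw [sum_ball]
  refine (h2.sub_const _).congr' ?_
  filter_upwards [eventually_ge_atTop R] with n hn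
  have := Finset.sum_sdiff (f := fun y => ‖u (x + y)‖ ^ 2) (Lam_mono hn)
  linarith

theorem res_im (V : Site → ℝ) {z : ℂ} (hz : 0 < z.im) (x : Site) :
    z.im * ‖Res V z (dl x)‖ ^ 2 = ((Res V z (dl x)) x).im := by
  rw [← res_energy hz, inner_dl]

/-- joint measurability of the resolvent -/
theorem measurable_Res {Ω' : Type*} [MeasurableSpace Ω'] (V : Ω' → Site → ℝ) (z : Ω' → ℂ)
    (hV : ∀ x, Measurable fun ω => V ω x) (hz : Measurable z) (hz0 : ∀ ω, 0 < (z ω).im)
    (x y : Site) : Measurable fun ω => (Res (V ω) (z ω) (dl x)) y := by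
  have h1 : ∀ M, Measurable fun ω => GVs M (shift x (V ω)) (z ω) (-x + y) := fun M =>
    measurable_GVs M (fun ω => shift x (V ω)) z (fun y' => hV (x + y')) hz _
  refine measurable_of_tendsto_metrizable h1 ?_
  rw [tendsto_pi_nhds]
  intro ω
  have h2 := tendsto_GVs (hz0 ω) x (-x + y) (res_spec (V ω) (hz0 ω) (dl x))
  rwa [add_neg_cancel_left] at h2

theorem measurable_tail {Ω' : Type*} [MeasurableSpace Ω'] (V : Ω' → Site → ℝ) (z : Ω' → ℂ)
    (hV : ∀ x, Measurable fun ω => V ω x) (hz : Measurable z) (hz0 : ∀ ω, 0 < (z ω).im)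
    (x : Site) (R : ℕ) :
    Measurable fun ω => (z ω).im * tail (ball x R) (Res (V ω) (z ω) (dl x)) := by
  have h1 : ∀ ω, (z ω).im * tail (ball x R) (Res (V ω) (z ω) (dl x)) =
      ((Res (V ω) (z ω) (dl x)) x).im -
        (z ω).im * ∑ y ∈ ball x R, ‖(Res (V ω) (z ω) (dl x)) y‖ ^ 2 := by
    intro ω
    unfold tail
    rw [mul_sub, res_im _ (hz0 ω)]
  simp only [h1]
  refine (Complex.measurable_im.comp (measurable_Res V z hV hz hz0 x x)).sub ?_
  refine (Complex.measurable_im.comp hz).mul (Finset.measurable_sum _ fun y _ => ?_)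
  exact (measurable_Res V z hV hz hz0 x y).norm.pow_const 2

/-- infinite volume bound on finite sets -/
theorem inf_bound (hγ : 0 < γ) (hs : Setup P U c) (x : Site) {z : ℂ} (hz : 0 < z.im)
    (F : Finset Site) {s K : ℝ} (hs0 : 0 < s) (hs1 : s ≤ 1) (a : Site → ℝ≥0∞)
    (ha : ∀ y ∈ F, ∀ᶠ M in atTop, ∫⁻ ω, ENNReal.ofReal
      (‖GVs M (shift x (pot γ U c ω)) z y‖ ^ s) ∂P ≤ a y) :
    ∫⁻ ω, ENNReal.ofReal (z.im * ∑ y ∈ F, ‖(Res (pot γ U c ω) z (dl x)) (x + y)‖ ^ 2) ∂P ≤
      ENNReal.ofReal (1 / γ) * (P {ω | K < ‖((pot γ U c ω x : ℝ) : ℂ) - z‖} +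
        ENNReal.ofReal ((2 * (4 + K ^ 2)) ^ (s / 2)) * ∑ y ∈ F, a y) := by
  have hmV : ∀ y, Measurable fun ω => shift x (pot γ U c ω) y := fun y => measurable_pot hs (x + y)
  have hmG : ∀ M y, Measurable fun ω => GVs M (shift x (pot γ U c ω)) z y := fun M y =>
    measurable_GVs M (fun ω => shift x (pot γ U c ω)) (fun _ => z) hmV measurable_const y
  set f : ℕ → Ω → ℝ≥0∞ := fun M ω => ENNReal.ofReal (z.im * ∑ y ∈ F,
    ‖GVs M (shift x (pot γ U c ω)) z y‖ ^ 2) with hf
  have hfm : ∀ M, Measurable (f M) := fun M =>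
    ((Finset.measurable_sum _ fun y _ => (hmG M y).norm.pow_const 2).const_mul _).ennreal_ofReal
  have hlim : ∀ ω, Tendsto (fun M => f M ω) atTop (𝓝 (ENNReal.ofReal (z.im * ∑ y ∈ F,
      ‖(Res (pot γ U c ω) z (dl x)) (x + y)‖ ^ 2))) := by
    intro ω
    refine ENNReal.tendsto_ofReal (Tendsto.const_mul _ (tendsto_finsetSum _ fun y _ => ?_))
    exact (tendsto_GVs hz x y (res_spec (pot γ U c ω) hz (dl x))).norm.pow 2
  have h1 : ∀ ω, ENNReal.ofReal (z.im * ∑ y ∈ F,
      ‖(Res (pot γ U c ω) z (dl x)) (x + y)‖ ^ 2) = liminf (fun M => f M ω) atTop :=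
    fun ω => (hlim ω).liminf_eq.symm
  simp only [h1]
  refine (lintegral_liminf_le hfm).trans ?_
  refine liminf_le_of_frequently_le' (Eventually.frequently ?_)
  have hev : ∀ᶠ M in atTop, ∀ y ∈ F, ∫⁻ ω, ENNReal.ofReal
      (‖GVs M (shift x (pot γ U c ω)) z y‖ ^ s) ∂P ≤ a y :=
    (Filter.eventually_all_finset F).2 ha
  filter_upwards [hev] with M hM
  refine (fin_bound' hγ hs x M hz F (K := K) hs0 hs1).trans ?_
  gcongr with y hy
  exact hM y hy

theorem summable_n1 {c₀ : ℝ} (hc : 0 < c₀) : Summable fun y : Site => Real.exp (-c₀ * n1 y) := by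
  have h1 : Summable fun n : ℕ => Real.exp (-c₀ * n) := by
    have : (fun n : ℕ => Real.exp (-c₀ * n)) = fun n : ℕ => (Real.exp (-c₀)) ^ n := by
      funext n
      rw [← Real.exp_nat_mul, mul_comm]
    rw [this]
    refine summable_geometric_of_lt_one (Real.exp_pos _).le ?_
    rw [← Real.exp_zero]
    exact Real.exp_lt_exp.2 (by linarith)
  have h2 : Summable fun n : ℤ => Real.exp (-c₀ * n.natAbs) := by
    refine Summable.of_nat_of_neg ?_ ?_
    · simpa using h1
    · simpa using h1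
  have h3 := h2.mul_of_nonneg h2 (fun _ => (Real.exp_pos _).le) fun _ => (Real.exp_pos _).le
  refine h3.congr fun y => ?_
  rw [← Real.exp_add]
  congr 1
  unfold n1
  push_cast
  ring

/-- tightness of the potential at a site -/
theorem tight_pot (hs : Setup P U c) (x : Site) {ε : ℝ≥0∞} (hε : ε ≠ 0) :
    ∃ K : ℝ, P {ω | K < |pot γ U c ω x|} ≤ ε := by
  have hm := measurable_pot (γ := γ) hs x
  have h1 : Tendsto (fun n : ℕ => P {ω | (n : ℝ) < |pot γ U c ω x|}) atTop (𝓝 0) := by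
    have h2 : Antitone fun n : ℕ => {ω | (n : ℝ) < |pot γ U c ω x|} := by
      intro a b hab ω hω
      have : (a : ℝ) ≤ b := by exact_mod_cast hab
      exact lt_of_le_of_lt this hω
    have h3 : ⋂ n : ℕ, {ω | (n : ℝ) < |pot γ U c ω x|} = ∅ := by
      rw [Set.eq_empty_iff_forall_notMem]
      intro ω hω
      obtain ⟨n, hn⟩ := exists_nat_gt |pot γ U c ω x|
      exact absurd (Set.mem_iInter.1 hω n) (not_lt.2 hn.le)
    have h4 := tendsto_measure_iInter_atTop (μ := P) (s := fun n : ℕ => {ω | (n : ℝ) < |pot γ U c ω x|})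
      (fun n => (measurableSet_lt measurable_const hm.abs).nullMeasurableSet) h2
      ⟨0, measure_ne_top _ _⟩
    rw [h3, measure_empty] at h4
    exact h4
  obtain ⟨n, hn⟩ := (h1.eventually (gt_mem_nhds (pos_iff_ne_zero.2 hε))).exists
  exact ⟨n, hn.le⟩

/-- **small far absorption** at a fixed energy, in expectation -/
theorem tail_small (hγ : 0 < γ) (hs : Setup P U c) (x : Site) (E : ℝ)
    (hFM : FM P (fun ω => shift x (pot γ U c ω)) E) {ε : ℝ} (hε : 0 < ε) :
    ∃ (R₀ : ℕ) (η₀ : ℝ), 0 < η₀ ∧ ∀ R, R₀ ≤ R → ∀ η : ℝ, 0 < η → η ≤ η₀ →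
      ∫⁻ ω, ENNReal.ofReal (η * tail (ball x R) (Res (pot γ U c ω) (E + η * I) (dl x))) ∂P ≤
        ENNReal.ofReal ε := by
  obtain ⟨s, C, c₀, η₀, hs0, hs1, hc₀, hη₀, H⟩ := hFM
  -- the threshold for the potential
  obtain ⟨K₀, hK₀⟩ := tight_pot (P := P) (γ := γ) hs x
    (ε := ENNReal.ofReal (ε * γ / 2)) (by simpa using by positivity)
  set K : ℝ := K₀ + |E| + 1 with hK
  set B : ℝ := (2 * (4 + K ^ 2)) ^ (s / 2) with hB
  have hB0 : 0 < B := Real.rpow_pos_of_pos (by positivity) _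
  set D : ℝ := max C 1 with hD
  have hD0 : 0 < D := lt_of_lt_of_le one_pos (le_max_right _ _)
  have hsum := summable_n1 hc₀
  obtain ⟨S₀, hS₀⟩ := (summable_iff_vanishing_norm.1 hsum) (ε * γ / 2 / (B * D)) (by positivity)
  obtain ⟨R₀, hR₀⟩ := (Lam_tendsto.eventually (eventually_ge_atTop S₀)).exists
  refine ⟨R₀, min η₀ 1, lt_min hη₀ one_pos, fun R hR η hη hη1 => ?_⟩
  have hz : 0 < ((E : ℂ) + η * I).im := hz_im E hη
  have hzim : ((E : ℂ) + η * I).im = η := by simp
  have hηη₀ : η ≤ η₀ := hη1.trans (min_le_left _ _)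
  have hη11 : η ≤ 1 := hη1.trans (min_le_right _ _)
  have hmV : ∀ y, Measurable fun ω => pot γ U c ω y := fun y => measurable_pot hs y
  -- probability of a large potential
  have hPK : P {ω | K < ‖((pot γ U c ω x : ℝ) : ℂ) - (E + η * I)‖} ≤ ENNReal.ofReal (ε * γ / 2) := by
    refine (measure_mono ?_).trans hK₀
    intro ω hω
    have h1 : ‖((pot γ U c ω x : ℝ) : ℂ) - (E + η * I)‖ ≤ |pot γ U c ω x| + (|E| + η) := by
      refine (norm_sub_le _ _).trans ?_
      rw [Complex.norm_real, Real.norm_eq_abs]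
      refine add_le_add le_rfl ((norm_add_le _ _).trans ?_)
      rw [Complex.norm_real, Real.norm_eq_abs, norm_mul, Complex.norm_I, mul_one,
        Complex.norm_real, Real.norm_of_nonneg hη.le]
    have h2 : K < ‖((pot γ U c ω x : ℝ) : ℂ) - (E + η * I)‖ := hω
    show K₀ < |pot γ U c ω x|
    linarith
  -- the limit over finite sets
  set f : ℕ → Ω → ℝ≥0∞ := fun n ω => ENNReal.ofReal (η * ∑ y ∈ Lam n \ Lam R,
    ‖(Res (pot γ U c ω) (E + η * I) (dl x)) (x + y)‖ ^ 2) with hf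
  have hmR : ∀ y, Measurable fun ω => (Res (pot γ U c ω) (E + η * I) (dl x)) y := fun y =>
    measurable_Res (fun ω => pot γ U c ω) (fun _ => (E : ℂ) + η * I) hmV measurable_const
      (fun _ => hz) x y
  have hfm : ∀ n, Measurable (f n) := fun n =>
    ((Finset.measurable_sum _ fun y _ => (hmR (x + y)).norm.pow_const 2).const_mul _).ennreal_ofReal
  have h1 : ∀ ω, ENNReal.ofReal (η * tail (ball x R) (Res (pot γ U c ω) (E + η * I) (dl x))) =
      liminf (fun n => f n ω) atTop := by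
    intro ω
    symm
    refine Tendsto.liminf_eq ?_
    exact ENNReal.tendsto_ofReal ((tendsto_tail x _ R).const_mul _)
  simp only [h1]
  refine (lintegral_liminf_le hfm).trans ?_
  refine liminf_le_of_frequently_le' (Eventually.frequently (Eventually.of_forall fun n => ?_))
  have hb := inf_bound hγ hs x hz (Lam n \ Lam R) (K := K) hs0 hs1
    (fun y => ENNReal.ofReal (C * Real.exp (-c₀ * n1 y))) (fun y _ => H η hη hηη₀ y)
  rw [hzim] at hb
  refine hb.trans ?_
  have hsumle : ∑ y ∈ Lam n \ Lam R, ENNReal.ofReal (C * Real.exp (-c₀ * n1 y)) ≤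
      ENNReal.ofReal (D * (ε * γ / 2 / (B * D))) := by
    have hdis : Disjoint (Lam n \ Lam R) S₀ := by
      rw [Finset.disjoint_left]
      intro y hy hy'
      exact (Finset.mem_sdiff.1 hy).2 (Lam_mono hR (hR₀ hy'))
    have h2 := hS₀ _ hdis
    rw [Real.norm_of_nonneg (Finset.sum_nonneg fun y _ => (Real.exp_pos _).le)] at h2
    calc ∑ y ∈ Lam n \ Lam R, ENNReal.ofReal (C * Real.exp (-c₀ * n1 y))
        ≤ ∑ y ∈ Lam n \ Lam R, ENNReal.ofReal (D * Real.exp (-c₀ * n1 y)) := by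
          refine Finset.sum_le_sum fun y _ => ENNReal.ofReal_le_ofReal ?_
          exact mul_le_mul_of_nonneg_right (le_max_left _ _) (Real.exp_pos _).le
      _ = ENNReal.ofReal (D * ∑ y ∈ Lam n \ Lam R, Real.exp (-c₀ * n1 y)) := by
          rw [Finset.mul_sum, ENNReal.ofReal_sum_of_nonneg fun y _ =>
            mul_nonneg hD0.le (Real.exp_pos _).le]
      _ ≤ _ := ENNReal.ofReal_le_ofReal (mul_le_mul_of_nonneg_left h2.le hD0.le)
  calc ENNReal.ofReal (1 / γ) * (P {ω | K < ‖((pot γ U c ω x : ℝ) : ℂ) - (E + η * I)‖} +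
        ENNReal.ofReal B * ∑ y ∈ Lam n \ Lam R, ENNReal.ofReal (C * Real.exp (-c₀ * n1 y)))
      ≤ ENNReal.ofReal (1 / γ) * (ENNReal.ofReal (ε * γ / 2) +
        ENNReal.ofReal B * ENNReal.ofReal (D * (ε * γ / 2 / (B * D)))) := by
        gcongr
    _ = ENNReal.ofReal ε := by
        rw [← ENNReal.ofReal_mul hB0.le, ← ENNReal.ofReal_add (by positivity) (by positivity),
          ← ENNReal.ofReal_mul (by positivity)]
        congr 1
        field_simp
        ring

/-- the expected spectral density is at most `1/γ` -/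
theorem mean_le (hγ : 0 < γ) (hs : Setup P U c) (x : Site) {z : ℂ} (hz : 0 < z.im) (R : ℕ) :
    ∫⁻ ω, ENNReal.ofReal (z.im * tail (ball x R) (Res (pot γ U c ω) z (dl x))) ∂P ≤
      ENNReal.ofReal (1 / γ) := by
  have hmV : ∀ y, Measurable fun ω => pot γ U c ω y := fun y => measurable_pot hs y
  have hmV' : ∀ y, Measurable fun ω => shift x (pot γ U c ω) y := fun y =>
    measurable_pot hs (x + y)
  have hmR : ∀ y, Measurable fun ω => (Res (pot γ U c ω) z (dl x)) y := fun y =>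
    measurable_Res (fun ω => pot γ U c ω) (fun _ => z) hmV measurable_const (fun _ => hz) x y
  set f : ℕ → Ω → ℝ≥0∞ := fun n ω => ENNReal.ofReal (z.im * ∑ y ∈ Lam n \ Lam R,
    ‖(Res (pot γ U c ω) z (dl x)) (x + y)‖ ^ 2) with hf
  have hfm : ∀ n, Measurable (f n) := fun n =>
    ((Finset.measurable_sum _ fun y _ => (hmR (x + y)).norm.pow_const 2).const_mul _).ennreal_ofReal
  have h1 : ∀ ω, ENNReal.ofReal (z.im * tail (ball x R) (Res (pot γ U c ω) z (dl x))) =
      liminf (fun n => f n ω) atTop := by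
    intro ω
    symm
    refine Tendsto.liminf_eq ?_
    exact ENNReal.tendsto_ofReal ((tendsto_tail x _ R).const_mul _)
  simp only [h1]
  refine (lintegral_liminf_le hfm).trans ?_
  refine liminf_le_of_frequently_le' (Eventually.frequently (Eventually.of_forall fun n => ?_))
  -- finite volume
  have hmG : ∀ M y, Measurable fun ω => GVs M (shift x (pot γ U c ω)) z y := fun M y =>
    measurable_GVs M (fun ω => shift x (pot γ U c ω)) (fun _ => z) hmV' measurable_const y
  set g : ℕ → Ω → ℝ≥0∞ := fun M ω => ENNReal.ofReal (z.im * ∑ y ∈ Lam n \ Lam R,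
    ‖GVs M (shift x (pot γ U c ω)) z y‖ ^ 2) with hg
  have hgm : ∀ M, Measurable (g M) := fun M =>
    ((Finset.measurable_sum _ fun y _ => (hmG M y).norm.pow_const 2).const_mul _).ennreal_ofReal
  have h2 : ∀ ω, f n ω = liminf (fun M => g M ω) atTop := by
    intro ω
    symm
    refine Tendsto.liminf_eq ?_
    refine ENNReal.tendsto_ofReal (Tendsto.const_mul _ (tendsto_finsetSum _ fun y _ => ?_))
    exact (tendsto_GVs hz x y (res_spec (pot γ U c ω) hz (dl x))).norm.pow 2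
  simp only [h2]
  refine (lintegral_liminf_le hgm).trans ?_
  refine liminf_le_of_frequently_le' (Eventually.frequently (Eventually.of_forall fun M => ?_))
  refine (fin_bound hγ hs x M hz _).trans ?_
  calc ENNReal.ofReal (1 / γ) * ∫⁻ ω, ENNReal.ofReal (min 1
        (2 * (4 + ‖((pot γ U c ω x : ℝ) : ℂ) - z‖ ^ 2) *
          ∑ y ∈ Lam n \ Lam R, ‖GVs M (shift x (pot γ U c ω)) z y‖ ^ 2)) ∂P
      ≤ ENNReal.ofReal (1 / γ) * ∫⁻ _, 1 ∂P := by
        gcongr with ω
        rw [← ENNReal.ofReal_one]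
        exact ENNReal.ofReal_le_ofReal (min_le_left _ _)
    _ = ENNReal.ofReal (1 / γ) := by simp

end P365L.Inf
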