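import Vale.Agent.P365.Inf.Lim

set_option linter.all false

/-!
# P365 INF: expectations in finite volume and in infinite volume
-/

namespace P365L.Inf

open MeasureTheory ProbabilityTheory Complex Filter Topology
open scoped ENNReal InnerProductSpace

variable {Ω : Type*} [MeasurableSpace Ω] {P : Measure Ω} [IsProbabilityMeasure P]

/-- the standing assumptions on the random potential `U + γ c` -/
structure Setup (P : Measure Ω) (U c : Site → Ω → ℝ) : Prop where
  hU : ∀ x, Measurable (U x)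
  hc : ∀ x, Measurable (c x)
  hci : iIndepFun c P
  hcl : ∀ x, P.map (c x) = cauchyMeasure 0 1
  hUc : IndepFun (fun ω x => U x ω) (fun ω x => c x ω) P

/-- the random potential -/
def pot (γ : ℝ) (U c : Site → Ω → ℝ) (ω : Ω) : Site → ℝ := fun y => U y ω + γ * c y ω

variable {γ : ℝ} {U c : Site → Ω → ℝ}

theorem measurable_pot (hs : Setup P U c) (x : Site) : Measurable fun ω => pot γ U c ω x :=
  (hs.hU x).add ((hs.hc x).const_mul γ)

theorem measurable_GVs {Ω' : Type*} [MeasurableSpace Ω'] (M : ℕ) (V : Ω' → Site → ℝ) (z : Ω' → ℂ)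
    (hV : ∀ x, Measurable fun ω => V ω x) (hz : Measurable z) (y : Site) :
    Measurable fun ω => GVs M (V ω) (z ω) y := by
  unfold GVs ex
  by_cases h : y ∈ Lam M
  · simp only [dif_pos h]
    exact measurable_GV M V z hV hz _ _
  · simp only [dif_neg h]
    exact measurable_const

/-- **finite volume bound of the far absorption** -/
theorem fin_bound (hγ : 0 < γ) (hs : Setup P U c) (x : Site) (M : ℕ) {z : ℂ} (hz : 0 < z.im)
    (F : Finset Site) :
    ∫⁻ ω, ENNReal.ofReal (z.im * ∑ y ∈ F, ‖GVs M (shift x (pot γ U c ω)) z y‖ ^ 2) ∂P ≤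
      ENNReal.ofReal (1 / γ) * ∫⁻ ω, ENNReal.ofReal (min 1
        (2 * (4 + ‖((pot γ U c ω x : ℝ) : ℂ) - z‖ ^ 2) *
          ∑ y ∈ F, ‖GVs M (shift x (pot γ U c ω)) z y‖ ^ 2)) ∂P := by
  classical
  -- the two random vectors in the box
  set U' : Ω → (Lam M → ℝ) := fun ω y => U (x + y) ω with hU'
  set c' : Ω → (Lam M → ℝ) := fun ω y => c (x + y) ω with hc'
  have hU'm : Measurable U' := measurable_pi_lambda _ fun y => hs.hU _
  have hc'm : Measurable c' := measurable_pi_lambda _ fun y => hs.hc _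
  have hinj : Function.Injective (fun y : Lam M => x + (y : Site)) := by
    intro a b hab
    exact Subtype.ext (add_left_cancel hab)
  have hci' : iIndepFun (fun y : Lam M => c (x + y)) P := hs.hci.precomp hinj
  have hlaw : P.map c' = mu (Lam M) := by
    have h1 := (iIndepFun_iff_map_fun_eq_pi_map (fun y : Lam M => (hs.hc (x + y)).aemeasurable)).mp
      hci'
    rw [hc', h1]
    simp only [hs.hcl]
  have hind : IndepFun U' c' P := by
    have h1 : Measurable (fun (v : Site → ℝ) (y : Lam M) => v (x + y)) :=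
      measurable_pi_lambda _ fun y => measurable_pi_apply _
    exact hs.hUc.comp h1 h1
  have hprod : P.map (fun ω => (U' ω, c' ω)) = (P.map U').prod (mu (Lam M)) := by
    rw [(indepFun_iff_map_prod_eq_prod_map_map hU'm.aemeasurable hc'm.aemeasurable).mp hind, hlaw]
  -- the finite set inside the box
  set F' : Finset (Lam M) := Finset.univ.filter fun y => (y : Site) ∈ F with hF'
  have hGT : ∀ ω (y : Lam M), GVs M (shift x (pot γ U c ω)) z y =
      GT (AL M) γ (U' ω) z Finset.univ (c' ω) y (oL M) := by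
    intro ω y
    rw [GVs_coe]
    have h1 : (shift x (pot γ U c ω)) = fun y => (fun y => U (x + y) ω) y +
        γ * (fun y => c (x + y) ω) y := rfl
    rw [h1, GV_eq_GT]
  have hsumF : ∀ ω, ∑ y ∈ F, ‖GVs M (shift x (pot γ U c ω)) z y‖ ^ 2 =
      ∑ y ∈ F', ‖GT (AL M) γ (U' ω) z Finset.univ (c' ω) y (oL M)‖ ^ 2 := by
    intro ω
    have h1 : ∑ y ∈ F, ‖GVs M (shift x (pot γ U c ω)) z y‖ ^ 2 =
        ∑ y ∈ F.filter (fun y => y ∈ Lam M), ‖GVs M (shift x (pot γ U c ω)) z y‖ ^ 2 := by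
      rw [Finset.sum_filter]
      refine Finset.sum_congr rfl fun y _ => ?_
      by_cases h : y ∈ Lam M
      · rw [if_pos h]
      · rw [if_neg h, GVs_out _ _ _ h]
        simp
    rw [h1]
    symm
    refine Finset.sum_bij (fun (y : Lam M) _ => (y : Site)) ?_ ?_ ?_ ?_
    · intro y hy
      exact Finset.mem_filter.2 ⟨(Finset.mem_filter.1 hy).2, y.2⟩
    · intro a _ b _ hab
      exact Subtype.ext hab
    · intro y hy
      have hy := Finset.mem_filter.1 hy
      exact ⟨⟨y, hy.2⟩, Finset.mem_filter.2 ⟨Finset.mem_univ _, hy.1⟩, rfl⟩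
    · intro y _
      rw [hGT]
  have hroot : ∀ ω, ((pot γ U c ω x : ℝ) : ℂ) - z = Wt γ (U' ω) z Finset.univ (c' ω) (oL M) := by
    intro ω
    have hx0 : x + ((oL M : Lam M) : Site) = x := Prod.ext (by simp [oL]) (by simp [oL])
    unfold Wt pot
    simp only [hU', hc', Finset.mem_univ, if_true, hx0]
    push_cast
    ring
  -- measurability of the integrands on the product
  have hmG : ∀ y : Lam M, Measurable fun p : (Lam M → ℝ) × (Lam M → ℝ) =>
      GT (AL M) γ p.1 z Finset.univ p.2 y (oL M) := by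
    intro y
    unfold GT
    refine measurable_Gr (fun (p : (Lam M → ℝ) × (Lam M → ℝ)) => Wt γ p.1 z Finset.univ p.2)
      (fun y => ?_) _ _
    simp only [Wt, Finset.mem_univ, if_true]
    have h2 : Measurable fun p : (Lam M → ℝ) × (Lam M → ℝ) => p.1 y :=
      (measurable_pi_apply y).comp measurable_fst
    have h3 : Measurable fun p : (Lam M → ℝ) × (Lam M → ℝ) => p.2 y :=
      (measurable_pi_apply y).comp measurable_snd
    exact ((Complex.measurable_ofReal.comp h2).add
      ((Complex.measurable_ofReal.comp h3).const_mul _)).sub_const _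
  have hmW : Measurable fun p : (Lam M → ℝ) × (Lam M → ℝ) =>
      Wt γ p.1 z Finset.univ p.2 (oL M) := by
    simp only [Wt, Finset.mem_univ, if_true]
    have h2 : Measurable fun p : (Lam M → ℝ) × (Lam M → ℝ) => p.1 (oL M) :=
      (measurable_pi_apply _).comp measurable_fst
    have h3 : Measurable fun p : (Lam M → ℝ) × (Lam M → ℝ) => p.2 (oL M) :=
      (measurable_pi_apply _).comp measurable_snd
    exact ((Complex.measurable_ofReal.comp h2).add
      ((Complex.measurable_ofReal.comp h3).const_mul _)).sub_const _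
  have hmS : Measurable fun p : (Lam M → ℝ) × (Lam M → ℝ) =>
      ∑ y ∈ F', ‖GT (AL M) γ p.1 z Finset.univ p.2 y (oL M)‖ ^ 2 :=
    Finset.measurable_sum _ fun y _ => (hmG y).norm.pow_const 2
  set f1 : (Lam M → ℝ) × (Lam M → ℝ) → ℝ≥0∞ := fun p =>
    ENNReal.ofReal (z.im * ∑ y ∈ F', ‖GT (AL M) γ p.1 z Finset.univ p.2 y (oL M)‖ ^ 2) with hf1
  set f2 : (Lam M → ℝ) × (Lam M → ℝ) → ℝ≥0∞ := fun p =>
    ENNReal.ofReal (trunc (AL M) γ p.1 z (oL M) F' p.2) with hf2
  have hf1m : Measurable f1 := (hmS.const_mul _).ennreal_ofReal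
  have hf2m : Measurable f2 := by
    refine Measurable.ennreal_ofReal ?_
    unfold trunc
    exact measurable_const.min ((((hmW.norm.pow_const 2).const_add _).const_mul _).mul hmS)
  have e1 : ∀ ω, ENNReal.ofReal (z.im * ∑ y ∈ F, ‖GVs M (shift x (pot γ U c ω)) z y‖ ^ 2) =
      f1 (U' ω, c' ω) := by
    intro ω
    rw [hsumF]
  have e2 : ∀ ω, ENNReal.ofReal (min 1 (2 * (4 + ‖((pot γ U c ω x : ℝ) : ℂ) - z‖ ^ 2) *
      ∑ y ∈ F, ‖GVs M (shift x (pot γ U c ω)) z y‖ ^ 2)) = f2 (U' ω, c' ω) := by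
    intro ω
    rw [hsumF, hroot]
    rfl
  simp_rw [e1, e2]
  have l1 : ∫⁻ ω, f1 (U' ω, c' ω) ∂P = ∫⁻ p, f1 p ∂((P.map U').prod (mu (Lam M))) := by
    rw [← hprod, lintegral_map hf1m (hU'm.prodMk hc'm)]
  have l2 : ∫⁻ ω, f2 (U' ω, c' ω) ∂P = ∫⁻ p, f2 p ∂((P.map U').prod (mu (Lam M))) := by
    rw [← hprod, lintegral_map hf2m (hU'm.prodMk hc'm)]
  have : IsProbabilityMeasure (P.map U') := Measure.isProbabilityMeasure_map hU'm.aemeasurable
  rw [l1, l2, lintegral_prod _ hf1m.aemeasurable, lintegral_prod _ hf2m.aemeasurable,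
    ← lintegral_const_mul _ hf2m.lintegral_prod_right']
  refine lintegral_mono fun u => ?_
  simp only
  have hi1 : Integrable (fun v => z.im * ∑ y ∈ F', ‖GT (AL M) γ u z Finset.univ v y (oL M)‖ ^ 2)
      (mu (Lam M)) :=
    (integrable_finset_sum _ fun y _ =>
      integrable_norm_GT_pow (AL_symm M) hγ hz Finset.univ y (oL M) 2).const_mul _
  have hi2 := integrable_trunc (A := AL M) (γ := γ) (U := u) (ζ := z) (oL M) F'
  have h1 : ∫⁻ v, f1 (u, v) ∂(mu (Lam M)) = ENNReal.ofReal (∫ v, z.im *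
      ∑ y ∈ F', ‖GT (AL M) γ u z Finset.univ v y (oL M)‖ ^ 2 ∂(mu (Lam M))) := by
    rw [ofReal_integral_eq_lintegral_ofReal hi1 (Eventually.of_forall fun v => ?_)]
    exact mul_nonneg hz.le (Finset.sum_nonneg fun y _ => sq_nonneg _)
  have h2 : ∫⁻ v, f2 (u, v) ∂(mu (Lam M)) = ENNReal.ofReal (∫ v,
      trunc (AL M) γ u z (oL M) F' v ∂(mu (Lam M))) := by
    rw [ofReal_integral_eq_lintegral_ofReal hi2 (Eventually.of_forall fun v => ?_)]
    exact trunc_nonneg _ _ _
  rw [h1, h2, ← ENNReal.ofReal_mul (by positivity)]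
  exact ENNReal.ofReal_le_ofReal (rank_one (AL_symm M) hγ hz (oL M) (AL_deg M (oL M)) F')

/-- the same with fractional moments -/
theorem fin_bound' (hγ : 0 < γ) (hs : Setup P U c) (x : Site) (M : ℕ) {z : ℂ} (hz : 0 < z.im)
    (F : Finset Site) {s K : ℝ} (hs0 : 0 < s) (hs1 : s ≤ 1) :
    ∫⁻ ω, ENNReal.ofReal (z.im * ∑ y ∈ F, ‖GVs M (shift x (pot γ U c ω)) z y‖ ^ 2) ∂P ≤
      ENNReal.ofReal (1 / γ) * (P {ω | K < ‖((pot γ U c ω x : ℝ) : ℂ) - z‖} +
        ENNReal.ofReal ((2 * (4 + K ^ 2)) ^ (s / 2)) *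
          ∑ y ∈ F, ∫⁻ ω, ENNReal.ofReal (‖GVs M (shift x (pot γ U c ω)) z y‖ ^ s) ∂P) := by
  refine (fin_bound hγ hs x M hz F).trans ?_
  gcongr
  have hmV : ∀ y, Measurable fun ω => shift x (pot γ U c ω) y := fun y => measurable_pot hs (x + y)
  have hmG : ∀ y, Measurable fun ω => GVs M (shift x (pot γ U c ω)) z y := fun y =>
    measurable_GVs M (fun ω => shift x (pot γ U c ω)) (fun _ => z) hmV measurable_const y
  have hmy : ∀ y, Measurable fun ω => ENNReal.ofReal (‖GVs M (shift x (pot γ U c ω)) z y‖ ^ s) :=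
    fun y => ((hmG y).norm.pow_const s).ennreal_ofReal
  have hm0 : Measurable fun ω => ‖((pot γ U c ω x : ℝ) : ℂ) - z‖ :=
    ((Complex.measurable_ofReal.comp (measurable_pot hs x)).sub_const _).norm
  have hset : MeasurableSet {ω | K < ‖((pot γ U c ω x : ℝ) : ℂ) - z‖} :=
    measurableSet_lt measurable_const hm0
  calc ∫⁻ ω, ENNReal.ofReal (min 1 (2 * (4 + ‖((pot γ U c ω x : ℝ) : ℂ) - z‖ ^ 2) *
          ∑ y ∈ F, ‖GVs M (shift x (pot γ U c ω)) z y‖ ^ 2)) ∂P
      ≤ ∫⁻ ω, ({ω | K < ‖((pot γ U c ω x : ℝ) : ℂ) - z‖}.indicator (fun _ => (1 : ℝ≥0∞)) ω +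
          ENNReal.ofReal ((2 * (4 + K ^ 2)) ^ (s / 2)) *
            ∑ y ∈ F, ENNReal.ofReal (‖GVs M (shift x (pot γ U c ω)) z y‖ ^ s)) ∂P := by
        refine lintegral_mono fun ω => ?_
        simp only
        have h1 := min_one_le (K := K) (w := ‖((pot γ U c ω x : ℝ) : ℂ) - z‖) hs0 hs1 F
          (fun y => ‖GVs M (shift x (pot γ U c ω)) z y‖) (fun y => norm_nonneg _) (norm_nonneg _)
        refine (ENNReal.ofReal_le_ofReal h1).trans ?_
        rw [ENNReal.ofReal_add (by split_ifs <;> norm_num) (mul_nonneg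
          (Real.rpow_nonneg (by positivity) _) (Finset.sum_nonneg fun y _ =>
            Real.rpow_nonneg (norm_nonneg _) _)),
          ENNReal.ofReal_mul (Real.rpow_nonneg (by positivity) _),
          ENNReal.ofReal_sum_of_nonneg fun y _ => Real.rpow_nonneg (norm_nonneg _) _]
        refine add_le_add ?_ le_rfl
        by_cases h : ‖((pot γ U c ω x : ℝ) : ℂ) - z‖ ≤ K
        · rw [if_pos h]
          simp
        · have hmem : ω ∈ {ω | K < ‖((pot γ U c ω x : ℝ) : ℂ) - z‖} := not_le.1 h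
          rw [if_neg h, Set.indicator_of_mem hmem]
          simp
    _ = P {ω | K < ‖((pot γ U c ω x : ℝ) : ℂ) - z‖} +
        ENNReal.ofReal ((2 * (4 + K ^ 2)) ^ (s / 2)) *
          ∑ y ∈ F, ∫⁻ ω, ENNReal.ofReal (‖GVs M (shift x (pot γ U c ω)) z y‖ ^ s) ∂P := by
        rw [lintegral_add_left (measurable_const.indicator hset),
          lintegral_const_mul _ (Finset.measurable_sum _ fun y _ => hmy y),
          lintegral_finset_sum _ fun y _ => hmy y, lintegral_indicator_const hset, one_mul]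

end P365L.Inf
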