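import Vale.Agent.P365.Inf.Res

set_option linter.all false

/-!
# P365 INF: deterministic criterion for pure point spectrum
-/

namespace P365L.Inf

open MeasureTheory Complex Filter Topology
open scoped ENNReal InnerProductSpace

variable {V : Site → ℝ} {z : ℂ}

theorem hz_im (E : ℝ) {η : ℝ} (hη : 0 < η) : 0 < ((E : ℂ) + η * I).im := by simpa using hη

/-- `-iη ∫ dμ(t)/(t - E - iη) → μ{E}` -/
theorem tendsto_atom (μ : Measure ℝ) [IsFiniteMeasure μ] (E : ℝ) (η : ℕ → ℝ) (hη : ∀ k, 0 < η k)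
    (hη0 : Tendsto η atTop (𝓝 0)) :
    Tendsto (fun k => (-(η k : ℂ) * I) * BT μ E (η k)) atTop (𝓝 ((μ.real {E} : ℝ) : ℂ)) := by
  have h1 : ∀ k, (-(η k : ℂ) * I) * BT μ E (η k) =
      ∫ t : ℝ, (-(η k : ℂ) * I) * ((t : ℂ) - (E + η k * I))⁻¹ ∂μ := by
    intro k
    unfold BT
    rw [integral_const_mul]
  simp only [h1]
  have h2 : ((μ.real {E} : ℝ) : ℂ) = ∫ t : ℝ, (if t = E then (1 : ℂ) else 0) ∂μ := by
    have h3 : (fun t : ℝ => if t = E then (1 : ℂ) else 0) =
        Set.indicator {E} (fun _ => (1 : ℂ)) := by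
      funext t
      by_cases h : t = E <;> simp [h, Set.indicator]
    rw [h3, integral_indicator_const _ (measurableSet_singleton E)]
    simp
  rw [h2]
  refine tendsto_integral_of_dominated_convergence (fun _ => (1 : ℝ)) ?_ (integrable_const _) ?_ ?_
  · intro k
    refine Measurable.aestronglyMeasurable ?_
    fun_prop
  · intro k
    refine ae_of_all _ fun t => ?_
    rw [norm_mul, am_eq t E (hη k)]
    have h3 : ‖(-(η k : ℂ) * I)‖ = η k := by
      rw [norm_mul, norm_neg, Complex.norm_real, Complex.norm_I, mul_one, Real.norm_of_nonneg (hη k).le]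
    rw [h3]
    unfold am
    have h4 : η k ≤ Real.sqrt ((t - E) ^ 2 + η k ^ 2) := by
      refine Real.le_sqrt_of_sq_le ?_
      nlinarith [sq_nonneg (t - E)]
    have h5 : 0 < Real.sqrt ((t - E) ^ 2 + η k ^ 2) := lt_of_lt_of_le (hη k) h4
    rw [← div_eq_mul_inv, div_le_one h5]
    exact h4
  · refine ae_of_all _ fun t => ?_
    by_cases h : t = E
    · subst h
      rw [if_pos rfl]
      refine tendsto_const_nhds.congr fun k => ?_
      have h3 : (η k : ℂ) ≠ 0 := by exact_mod_cast (hη k).ne'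
      have h4 : (t : ℂ) - (t + η k * I) = -(η k : ℂ) * I := by ring
      rw [h4, mul_inv_cancel₀ (mul_ne_zero (neg_ne_zero.2 h3) I_ne_zero)]
    · rw [if_neg h]
      have h3 : Tendsto (fun k => (-(η k : ℂ) * I)) atTop (𝓝 0) := by
        have h4 : Tendsto (fun k => ((η k : ℝ) : ℂ)) atTop (𝓝 ((0 : ℝ) : ℂ)) :=
          (Complex.continuous_ofReal.tendsto 0).comp hη0
        have h5 := (h4.neg).mul_const I
        simpa using h5
      have h4 : Tendsto (fun k => ((t : ℂ) - (E + η k * I))⁻¹) atTop (𝓝 (((t : ℂ) - (E + (0 : ℝ) * I))⁻¹)) := by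
        refine Tendsto.inv₀ ?_ ?_
        · have h5 : Tendsto (fun k => ((η k : ℝ) : ℂ)) atTop (𝓝 ((0 : ℝ) : ℂ)) :=
            (Complex.continuous_ofReal.tendsto 0).comp hη0
          exact ((h5.mul_const I).const_add _).const_sub _
        · simp only [ofReal_zero, zero_mul, add_zero]
          intro h5
          apply h
          exact_mod_cast sub_eq_zero.1 h5
      have h5 := h3.mul h4
      simpa using h5

/-- diagonal matrix elements are the Borel transform -/
theorem inner_res_eq_BT {ψ : L2} {μ : Measure ℝ} (hμ : IsSpectralMeasure V ψ μ) (E : ℝ) {η : ℝ}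
    (hη : 0 < η) : ⟪ψ, Res V (E + η * I) ψ⟫_ℂ = BT μ E η := by
  obtain ⟨u, hu, hu2⟩ := hμ.transform _ (hz_im E hη)
  rw [res_unique (hz_im E hη) hu]
  exact hu2

/-- vectors orthogonal to all eigenvectors have a spectral measure without atoms -/
theorem no_atoms {ψ : L2} (hψ : ψ ∈ (EE V)ᗮ) {μ : Measure ℝ} (hμ : IsSpectralMeasure V ψ μ)
    (E : ℝ) : μ {E} = 0 := by
  have := hμ.finite
  set η : ℕ → ℝ := fun k => 1 / ((k : ℝ) + 1) with hηdef
  have hη : ∀ k, 0 < η k := fun k => by simp only [hηdef]; positivity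
  have hη0 : Tendsto η atTop (𝓝 0) := tendsto_one_div_add_atTop_nhds_zero_nat
  set u : ℕ → L2 := fun k => (-(η k : ℂ) * I) • Res V (E + η k * I) ψ with hu
  have hub : ∀ k, ‖u k‖ ≤ ‖ψ‖ := by
    intro k
    simp only [hu]
    have h3 : ‖(-(η k : ℂ) * I)‖ = η k := by
      rw [norm_mul, norm_neg, Complex.norm_real, Complex.norm_I, mul_one,
        Real.norm_of_nonneg (hη k).le]
    rw [norm_smul, h3]
    have h4 := res_norm_le (V := V) (hz_im E (hη k)) ψ
    have h5 : ((E : ℂ) + η k * I).im = η k := by simp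
    rw [h5] at h4
    calc η k * ‖Res V (E + η k * I) ψ‖ ≤ η k * (‖ψ‖ / η k) :=
          mul_le_mul_of_nonneg_left h4 (hη k).le
      _ = ‖ψ‖ := by field_simp [(hη k).ne']
  obtain ⟨w, hw⟩ := ExistAux.weak_lim (hyperfilter ℕ) u ‖ψ‖ hub
  have hF : (hyperfilter ℕ : Filter ℕ) ≤ atTop := Nat.hyperfilter_le_atTop
  -- inner product with ψ
  have h1 : ⟪ψ, w⟫_ℂ = ((μ.real {E} : ℝ) : ℂ) := by
    refine tendsto_nhds_unique (hw ψ) ?_
    refine ((tendsto_atom μ E η hη hη0).mono_left hF).congr fun k => ?_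
    simp only [hu]
    rw [inner_smul_right, inner_res_eq_BT hμ E (hη k)]
  -- coordinates
  have hcoord : ∀ x : Site, Tendsto (fun k => u k x) (hyperfilter ℕ : Filter ℕ) (𝓝 (w x)) := by
    intro x
    have := hw (dl x)
    simp only [inner_dl] at this
    exact this
  have hηF : Tendsto (fun k => ((η k : ℝ) : ℂ)) (hyperfilter ℕ : Filter ℕ) (𝓝 0) := by
    have h4 : Tendsto (fun k => ((η k : ℝ) : ℂ)) atTop (𝓝 ((0 : ℝ) : ℂ)) :=
      (Complex.continuous_ofReal.tendsto 0).comp hη0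
    simpa using h4.mono_left hF
  have heig : IsEig V E w := by
    intro x
    have hl : Tendsto (fun k => hop (fun y => u k y) x + ((V x : ℂ) - (E + η k * I)) * u k x)
        (hyperfilter ℕ : Filter ℕ) (𝓝 (hop (fun y => w y) x + ((V x : ℂ) - (E + 0 * I)) * w x)) := by
      refine Tendsto.add ?_ ?_
      · exact (((hcoord _).add (hcoord _)).add (hcoord _)).add (hcoord _)
      · exact (((hηF.mul_const I).const_add _).const_sub _).mul (hcoord x)
    have hr : Tendsto (fun k => (-(η k : ℂ) * I) * ψ x) (hyperfilter ℕ : Filter ℕ) (𝓝 0) := by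
      have := ((hηF.neg).mul_const I).mul_const (ψ x)
      simpa using this
    have heq : ∀ k, hop (fun y => u k y) x + ((V x : ℂ) - (E + η k * I)) * u k x =
        (-(η k : ℂ) * I) * ψ x := by
      intro k
      exact isResolvent_smul (-(η k : ℂ) * I) (res_spec V (hz_im E (hη k)) ψ) x
    simp only [heq] at hl
    have h3 := tendsto_nhds_unique hl hr
    rw [zero_mul, add_zero] at h3
    linear_combination h3
  -- orthogonality
  have horth : ⟪w, w⟫_ℂ = 0 := by
    refine tendsto_nhds_unique (hw w) ?_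
    refine tendsto_const_nhds.congr fun k => ?_
    simp only [hu]
    rw [inner_smul_right, orth_eig (res_orth (hz_im E (hη k)) hψ) heig, mul_zero]
  have hw0 : w = 0 := inner_self_eq_zero.1 horth
  rw [hw0, inner_zero_right] at h1
  have h5 : μ.real {E} = 0 := by exact_mod_cast h1.symm
  rw [Measure.real, ENNReal.toReal_eq_zero_iff] at h5
  rcases h5 with h5 | h5
  · exact h5
  · exact absurd h5 (measure_ne_top _ _)

/-- Wiener on the diagonal -/
theorem wiener_diag {ψ : L2} (hψ : ψ ∈ (EE V)ᗮ) (η : ℕ → ℝ) (hη : ∀ k, 0 < η k)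
    (hη0 : Tendsto η atTop (𝓝 0)) :
    Tendsto (fun k => ∫⁻ E : ℝ, ENNReal.ofReal (η k * ‖⟪ψ, Res V (E + η k * I) ψ⟫_ℂ‖ ^ 2)) atTop
      (𝓝 0) := by
  obtain ⟨μ, hμ, -⟩ := exists_spectralMeasure V ψ
  have := hμ.finite
  have h := wiener μ (no_atoms hψ hμ) η hη hη0
  refine h.congr fun k => ?_
  refine lintegral_congr fun E => ?_
  rw [inner_res_eq_BT hμ E (hη k)]

/-- polarisation -/
theorem polar_le (hz : 0 < z.im) (φ ψ : L2) :
    ‖⟪φ, Res V z ψ⟫_ℂ‖ ^ 2 ≤
      ‖⟪φ + ψ, Res V z (φ + ψ)⟫_ℂ‖ ^ 2 + ‖⟪φ - ψ, Res V z (φ - ψ)⟫_ℂ‖ ^ 2 +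
      ‖⟪φ + I • ψ, Res V z (φ + I • ψ)⟫_ℂ‖ ^ 2 + ‖⟪φ - I • ψ, Res V z (φ - I • ψ)⟫_ℂ‖ ^ 2 := by
  set a := ⟪φ + ψ, Res V z (φ + ψ)⟫_ℂ with ha
  set b := ⟪φ - ψ, Res V z (φ - ψ)⟫_ℂ with hb
  set c := ⟪φ + I • ψ, Res V z (φ + I • ψ)⟫_ℂ with hc
  set d := ⟪φ - I • ψ, Res V z (φ - I • ψ)⟫_ℂ with hd
  have key : 4 * ⟪φ, Res V z ψ⟫_ℂ = a - b - I * c + I * d := by
    rw [ha, hb, hc, hd]
    simp only [res_add hz, res_sub hz, res_smul hz, inner_add_left, inner_add_right,
      inner_sub_left, inner_sub_right, inner_smul_left, inner_smul_right, Complex.conj_I]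
    ring_nf
    simp only [I_sq]
    ring
  have h1 : 4 * ‖⟪φ, Res V z ψ⟫_ℂ‖ ≤ ‖a‖ + ‖b‖ + ‖c‖ + ‖d‖ := by
    have h2 : ‖(4 : ℂ) * ⟪φ, Res V z ψ⟫_ℂ‖ = 4 * ‖⟪φ, Res V z ψ⟫_ℂ‖ := by
      rw [norm_mul]; norm_num
    rw [← h2, key]
    refine (norm_add_le _ _).trans ?_
    refine add_le_add ((norm_sub_le _ _).trans (add_le_add (norm_sub_le _ _) ?_)) ?_
    · rw [norm_mul, Complex.norm_I, one_mul]
    · rw [norm_mul, Complex.norm_I, one_mul]
  have h0 := norm_nonneg ⟪φ, Res V z ψ⟫_ℂ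
  have h3 := norm_nonneg a
  have h4 := norm_nonneg b
  have h5 := norm_nonneg c
  have h6 := norm_nonneg d
  have h7 : (4 * ‖⟪φ, Res V z ψ⟫_ℂ‖) ^ 2 ≤ (‖a‖ + ‖b‖ + ‖c‖ + ‖d‖) ^ 2 :=
    pow_le_pow_left₀ (by positivity) h1 2
  nlinarith [sq_nonneg (‖a‖ - ‖b‖), sq_nonneg (‖a‖ - ‖c‖), sq_nonneg (‖a‖ - ‖d‖),
    sq_nonneg (‖b‖ - ‖c‖), sq_nonneg (‖b‖ - ‖d‖), sq_nonneg (‖c‖ - ‖d‖)]

theorem continuous_inner_res (V : Site → ℝ) {η : ℝ} (hη : 0 < η) (φ ψ : L2) :
    Continuous fun E : ℝ => ⟪φ, Res V (E + η * I) ψ⟫_ℂ :=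
  (continuous_const (y := φ)).inner (res_continuous_energy V hη ψ)

/-- Wiener off the diagonal -/
theorem wiener_off {φ ψ : L2} (hφ : φ ∈ (EE V)ᗮ) (hψ : ψ ∈ (EE V)ᗮ) (η : ℕ → ℝ)
    (hη : ∀ k, 0 < η k) (hη0 : Tendsto η atTop (𝓝 0)) :
    Tendsto (fun k => ∫⁻ E : ℝ, ENNReal.ofReal (η k * ‖⟪φ, Res V (E + η k * I) ψ⟫_ℂ‖ ^ 2)) atTop
      (𝓝 0) := by
  have m1 : φ + ψ ∈ (EE V)ᗮ := Submodule.add_mem _ hφ hψ
  have m2 : φ - ψ ∈ (EE V)ᗮ := Submodule.sub_mem _ hφ hψ
  have m3 : φ + I • ψ ∈ (EE V)ᗮ := Submodule.add_mem _ hφ (Submodule.smul_mem _ _ hψ)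
  have m4 : φ - I • ψ ∈ (EE V)ᗮ := Submodule.sub_mem _ hφ (Submodule.smul_mem _ _ hψ)
  have t1 := wiener_diag m1 η hη hη0
  have t2 := wiener_diag m2 η hη hη0
  have t3 := wiener_diag m3 η hη hη0
  have t4 := wiener_diag m4 η hη hη0
  have hsum := ((t1.add t2).add t3).add t4
  simp only [add_zero] at hsum
  refine tendsto_of_tendsto_of_tendsto_of_le_of_le tendsto_const_nhds hsum
    (fun _ => bot_le) fun k => ?_
  have hm : ∀ χ : L2, Measurable fun E : ℝ =>
      ENNReal.ofReal (η k * ‖⟪χ, Res V (E + η k * I) χ⟫_ℂ‖ ^ 2) := fun χ =>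
    (continuous_const.mul ((continuous_inner_res V (hη k) χ χ).norm.pow 2)).measurable.ennreal_ofReal
  simp only
  rw [← lintegral_add_right _ (hm _), ← lintegral_add_right _ (hm _),
    ← lintegral_add_right _ (hm _)]
  refine lintegral_mono fun E => ?_
  simp only
  rw [← ENNReal.ofReal_add (by have := hη k; positivity) (by have := hη k; positivity),
    ← ENNReal.ofReal_add (by have := hη k; positivity) (by have := hη k; positivity),
    ← ENNReal.ofReal_add (by have := hη k; positivity) (by have := hη k; positivity)]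
  refine ENNReal.ofReal_le_ofReal ?_
  have := mul_le_mul_of_nonneg_left (polar_le (V := V) (hz_im E (hη k)) φ ψ) (hη k).le
  linarith

theorem energy_integral (V : Site → ℝ) {η : ℝ} (hη : 0 < η) (ψ : L2) :
    ∫⁻ E : ℝ, ENNReal.ofReal (η * ‖Res V (E + η * I) ψ‖ ^ 2) =
      ENNReal.ofReal (Real.pi * ‖ψ‖ ^ 2) := by
  obtain ⟨μ, hμ, hmass⟩ := exists_spectralMeasure V ψ
  have := hμ.finite
  have h1 := lintegral_poisson_eq (μ := μ) hη
  have h2 : ∀ E : ℝ, η * ‖Res V (E + η * I) ψ‖ ^ 2 = ∫ t, η / ((t - E) ^ 2 + η ^ 2) ∂μ :=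
    fun E => (poisson_eq hμ E hη (res_spec V (hz_im E hη) ψ)).symm
  simp only [h2, h1]
  rw [ENNReal.ofReal_mul Real.pi_pos.le, ← hmass, Measure.real, ENNReal.ofReal_toReal (measure_ne_top _ _)]

/-- the tail of a vector outside a finite set -/
noncomputable def tail (F : Finset Site) (u : L2) : ℝ := ‖u‖ ^ 2 - ∑ y ∈ F, ‖u y‖ ^ 2

theorem tail_nonneg (F : Finset Site) (u : L2) : 0 ≤ tail F u := sub_nonneg.2 (sum_sq_le u F)

theorem inner_le_tail (F : Finset Site) (u v : L2) {θ : ℝ} (hθ : 0 < θ)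
    (h : ⟪v, u⟫_ℂ = ((‖v‖ ^ 2 : ℝ) : ℂ)) :
    ‖v‖ ^ 2 ≤ 1 / θ * ∑ y ∈ F, ‖v y‖ ^ 2 + θ * ‖u‖ ^ 2 + tail F u := by
  classical
  have h1 := lp.hasSum_inner (𝕜 := ℂ) v u
  have su := L2_hasSum_sq u
  have sv := L2_hasSum_sq v
  have sF : ∀ w : L2, HasSum (fun y : Site => if y ∈ F then ‖w y‖ ^ 2 else 0) (∑ y ∈ F, ‖w y‖ ^ 2) := by
    intro w
    have h2 : ∑ y ∈ F, ‖w y‖ ^ 2 = ∑ y ∈ F, (if y ∈ F then ‖w y‖ ^ 2 else 0) :=
      Finset.sum_congr rfl fun y hy => by rw [if_pos hy]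
    rw [h2]
    exact hasSum_sum_of_ne_finset_zero fun y hy => if_neg hy
  have sbound := (((sv.mul_left (1 / 2)).add (su.mul_left (θ / 2))).add
    ((sF v).mul_left (1 / (2 * θ)))).add ((su.sub (sF u)).mul_left (1 / 2))
  have hb : ∀ y : Site, ‖⟪v y, u y⟫_ℂ‖ ≤ 1 / 2 * ‖v y‖ ^ 2 + θ / 2 * ‖u y‖ ^ 2 +
      1 / (2 * θ) * (if y ∈ F then ‖v y‖ ^ 2 else 0) +
      1 / 2 * (‖u y‖ ^ 2 - if y ∈ F then ‖u y‖ ^ 2 else 0) := by
    intro y
    have h2 : ‖⟪v y, u y⟫_ℂ‖ ≤ ‖v y‖ * ‖u y‖ := norm_inner_le_norm _ _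
    refine h2.trans ?_
    have h3 := norm_nonneg (v y)
    have h4 := norm_nonneg (u y)
    by_cases hy : y ∈ F
    · rw [if_pos hy, if_pos hy]
      have h5 : θ / 2 * ‖u y‖ ^ 2 + 1 / (2 * θ) * ‖v y‖ ^ 2 - ‖v y‖ * ‖u y‖ =
          1 / (2 * θ) * (θ * ‖u y‖ - ‖v y‖) ^ 2 := by
        field_simp
        ring
      have h6 : 0 ≤ 1 / (2 * θ) * (θ * ‖u y‖ - ‖v y‖) ^ 2 := by positivity
      nlinarith [sq_nonneg (‖v y‖)]
    · rw [if_neg hy, if_neg hy]
      have h6 : 0 ≤ θ / 2 * ‖u y‖ ^ 2 := by positivity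
      nlinarith [sq_nonneg (‖v y‖ - ‖u y‖)]
  have hsum : Summable fun y : Site => ‖⟪v y, u y⟫_ℂ‖ := h1.summable.norm
  have h2 : ‖⟪v, u⟫_ℂ‖ ≤ 1 / 2 * ‖v‖ ^ 2 + θ / 2 * ‖u‖ ^ 2 +
      1 / (2 * θ) * ∑ y ∈ F, ‖v y‖ ^ 2 + 1 / 2 * (‖u‖ ^ 2 - ∑ y ∈ F, ‖u y‖ ^ 2) := by
    rw [← h1.tsum_eq]
    refine (norm_tsum_le_tsum_norm hsum).trans ?_
    exact hasSum_le hb hsum.hasSum sbound
  rw [h, Complex.norm_real, Real.norm_of_nonneg (by positivity)] at h2
  unfold tail
  have h3 : 1 / (2 * θ) * ∑ y ∈ F, ‖v y‖ ^ 2 = (1 / θ * ∑ y ∈ F, ‖v y‖ ^ 2) / 2 := by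
    field_simp
  rw [h3] at h2
  linarith

/-- **Deterministic criterion**: if the resolvents applied to the unit vectors have uniformly small
tails, in the sense of the energy average, then the eigenvectors span a dense subspace. -/
theorem EE_eq_top (V : Site → ℝ) (η : ℕ → ℝ) (hη : ∀ k, 0 < η k) (hη0 : Tendsto η atTop (𝓝 0))
    (h : ∀ x : Site, ∀ ε : ℝ, 0 < ε → ∃ F : Finset Site, ∃ᶠ k in atTop,
      ∫⁻ E : ℝ, ENNReal.ofReal (η k * tail F (Res V (E + η k * I) (dl x))) ≤ ENNReal.ofReal ε) :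
    EE V = ⊤ := by
  have main : ∀ x : Site, dl x ∈ EE V := by
    intro x
    set a : L2 := (EE V).starProjection (dl x) with ha
    set b : L2 := dl x - a with hb
    have ha' : a ∈ EE V := Submodule.starProjection_apply_mem _ _
    have hb' : b ∈ (EE V)ᗮ := Submodule.sub_starProjection_mem_orthogonal _
    have hx : dl x = a + b := by rw [hb]; abel
    -- coordinates of the orthogonal part
    have hco : ∀ (y : Site) (E : ℝ) (k : ℕ), (Res V (E + η k * I) b) y =
        ⟪dl y - (EE V).starProjection (dl y), Res V (E + η k * I) b⟫_ℂ := by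
      intro y E k
      rw [inner_sub_left, inner_dl]
      have : ⟪(EE V).starProjection (dl y), Res V (E + η k * I) b⟫_ℂ = 0 :=
        (Submodule.mem_orthogonal _ _).1 (res_orth (hz_im E (hη k)) hb') _
          (Submodule.starProjection_apply_mem _ _)
      rw [this, sub_zero]
    have hW : ∀ y : Site, Tendsto (fun k => ∫⁻ E : ℝ,
        ENNReal.ofReal (η k * ‖(Res V (E + η k * I) b) y‖ ^ 2)) atTop (𝓝 0) := by
      intro y
      have := wiener_off (V := V) (Submodule.sub_starProjection_mem_orthogonal (dl y)) hb' η hη hη0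
      refine this.congr fun k => ?_
      refine lintegral_congr fun E => ?_
      rw [hco y E k]
    have hb0 : ∀ ε : ℝ, 0 < ε → Real.pi * ‖b‖ ^ 2 ≤ ε + ε * Real.pi + ε := by
      intro ε hε
      obtain ⟨F, hF⟩ := h x ε hε
      have hWF : Tendsto (fun k => ∑ y ∈ F, ENNReal.ofReal (1 / ε) * ∫⁻ E : ℝ,
          ENNReal.ofReal (η k * ‖(Res V (E + η k * I) b) y‖ ^ 2)) atTop (𝓝 0) := by
        have h1 : Tendsto (fun k => ∑ y ∈ F, ENNReal.ofReal (1 / ε) * ∫⁻ E : ℝ,
            ENNReal.ofReal (η k * ‖(Res V (E + η k * I) b) y‖ ^ 2)) atTop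
            (𝓝 (∑ y ∈ F, ENNReal.ofReal (1 / ε) * 0)) :=
          tendsto_finsetSum _ fun y _ => ENNReal.Tendsto.const_mul (hW y)
            (Or.inr ENNReal.ofReal_ne_top)
        simpa using h1
      have hev : ∀ᶠ k in atTop, ∑ y ∈ F, ENNReal.ofReal (1 / ε) * ∫⁻ E : ℝ,
          ENNReal.ofReal (η k * ‖(Res V (E + η k * I) b) y‖ ^ 2) ≤ ENNReal.ofReal ε :=
        (hWF.eventually (gt_mem_nhds (by simpa using hε))).mono fun k hk => le_of_lt hk
      obtain ⟨k, hk1, hk2⟩ := (hF.and_eventually hev).exists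
      have hpt : ∀ E : ℝ, η k * ‖Res V (E + η k * I) b‖ ^ 2 ≤
          (∑ y ∈ F, 1 / ε * (η k * ‖(Res V (E + η k * I) b) y‖ ^ 2)) +
          (ε * (η k * ‖Res V (E + η k * I) (dl x)‖ ^ 2) +
            η k * tail F (Res V (E + η k * I) (dl x))) := by
        intro E
        have hz := hz_im E (hη k)
        have hin : ⟪Res V (E + η k * I) b, Res V (E + η k * I) (dl x)⟫_ℂ =
            ((‖Res V (E + η k * I) b‖ ^ 2 : ℝ) : ℂ) := by
          rw [hx, res_add hz, inner_add_right]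
          have h1 : ⟪Res V (E + η k * I) b, Res V (E + η k * I) a⟫_ℂ = 0 := by
            rw [← inner_conj_symm, (Submodule.mem_orthogonal _ _).1 (res_orth hz hb') _
              (res_mem hz ha')]
            simp
          rw [h1, zero_add, inner_self_eq_norm_sq_to_K]
          norm_cast
        have h2 := mul_le_mul_of_nonneg_left (inner_le_tail F _ _ hε hin) (hη k).le
        refine h2.trans (le_of_eq ?_)
        rw [← Finset.mul_sum, ← Finset.mul_sum]
        ring
      have hint : ENNReal.ofReal (Real.pi * ‖b‖ ^ 2) ≤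
          ENNReal.ofReal ε + (ENNReal.ofReal (ε * Real.pi) + ENNReal.ofReal ε) := by
        rw [← energy_integral V (hη k) b]
        calc ∫⁻ E : ℝ, ENNReal.ofReal (η k * ‖Res V (E + η k * I) b‖ ^ 2)
            ≤ ∫⁻ E : ℝ, ((∑ y ∈ F, ENNReal.ofReal (1 / ε) *
                ENNReal.ofReal (η k * ‖(Res V (E + η k * I) b) y‖ ^ 2)) +
              (ENNReal.ofReal ε * ENNReal.ofReal (η k * ‖Res V (E + η k * I) (dl x)‖ ^ 2) +
                ENNReal.ofReal (η k * tail F (Res V (E + η k * I) (dl x))))) := by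
              refine lintegral_mono fun E => ?_
              simp only
              have hk0 := (hη k).le
              have ht := tail_nonneg F (Res V (E + η k * I) (dl x))
              have e1 : (∑ y ∈ F, ENNReal.ofReal (1 / ε) *
                  ENNReal.ofReal (η k * ‖(Res V (E + η k * I) b) y‖ ^ 2)) =
                  ENNReal.ofReal (∑ y ∈ F, 1 / ε * (η k * ‖(Res V (E + η k * I) b) y‖ ^ 2)) := by
                rw [ENNReal.ofReal_sum_of_nonneg (fun y _ => by positivity)]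
                refine Finset.sum_congr rfl fun y _ => ?_
                rw [← ENNReal.ofReal_mul (by positivity)]
              rw [e1, ← ENNReal.ofReal_mul hε.le, ← ENNReal.ofReal_add (by positivity)
                (by positivity), ← ENNReal.ofReal_add (Finset.sum_nonneg fun y _ => by positivity)
                (by positivity)]
              exact ENNReal.ofReal_le_ofReal (hpt E)
          _ = (∑ y ∈ F, ENNReal.ofReal (1 / ε) * ∫⁻ E : ℝ,
                ENNReal.ofReal (η k * ‖(Res V (E + η k * I) b) y‖ ^ 2)) +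
              (ENNReal.ofReal ε * (∫⁻ E : ℝ,
                  ENNReal.ofReal (η k * ‖Res V (E + η k * I) (dl x)‖ ^ 2)) +
                ∫⁻ E : ℝ, ENNReal.ofReal (η k * tail F (Res V (E + η k * I) (dl x)))) := by
              have hmy : ∀ y : Site, Measurable fun E : ℝ =>
                  ENNReal.ofReal (η k * ‖(Res V (E + η k * I) b) y‖ ^ 2) := by
                intro y
                have hc : Continuous fun E : ℝ => (Res V (E + η k * I) b) y := by
                  have := continuous_inner_res V (hη k) (dl y) b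
                  simpa only [inner_dl] using this
                exact (continuous_const.mul (hc.norm.pow 2)).measurable.ennreal_ofReal
              have hmn : Measurable fun E : ℝ =>
                  ENNReal.ofReal (η k * ‖Res V (E + η k * I) (dl x)‖ ^ 2) :=
                (continuous_const.mul ((res_continuous_energy V (hη k) (dl x)).norm.pow
                  2)).measurable.ennreal_ofReal
              rw [lintegral_add_left (Finset.measurable_sum _ fun y _ => (hmy y).const_mul _),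
                lintegral_add_left (hmn.const_mul _), lintegral_const_mul _ hmn,
                lintegral_finset_sum _ fun y _ => (hmy y).const_mul _]
              congr 1
              exact Finset.sum_congr rfl fun y _ => lintegral_const_mul _ (hmy y)
          _ ≤ ENNReal.ofReal ε + (ENNReal.ofReal (ε * Real.pi) + ENNReal.ofReal ε) := by
              refine add_le_add hk2 (add_le_add (le_of_eq ?_) hk1)
              rw [energy_integral V (hη k) (dl x), ← ENNReal.ofReal_mul hε.le]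
              congr 1
              have : ‖dl x‖ = 1 := by
                unfold dl
                rw [lp.norm_single (by norm_num)]
                simp
              rw [this]
              ring
      rw [← ENNReal.ofReal_add (by positivity) (by positivity),
        ← ENNReal.ofReal_add (by positivity) (by positivity)] at hint
      have := (ENNReal.ofReal_le_ofReal_iff (by positivity)).1 hint
      linarith
    have hb1 : Real.pi * ‖b‖ ^ 2 ≤ 0 := by
      refine le_of_forall_pos_le_add fun ε hε => ?_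
      have h1 := hb0 (ε / (2 + Real.pi)) (by positivity)
      have h2 : ε / (2 + Real.pi) + ε / (2 + Real.pi) * Real.pi + ε / (2 + Real.pi) = ε := by
        field_simp
        ring
      rw [h2] at h1
      linarith
    have hb2 : b = 0 := by
      have h1 : ‖b‖ ^ 2 ≤ 0 := by
        by_contra h2
        push Not at h2
        nlinarith [Real.pi_pos]
      have h2 : ‖b‖ ^ 2 = 0 := le_antisymm h1 (sq_nonneg _)
      exact norm_eq_zero.1 (pow_eq_zero_iff two_ne_zero |>.1 h2)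
    rw [hx, hb2, add_zero]
    exact ha'
  rw [← Submodule.orthogonal_eq_bot_iff, Submodule.eq_bot_iff]
  intro φ hφ
  have : ∀ x : Site, φ x = 0 := by
    intro x
    rw [← inner_dl]
    exact (Submodule.mem_orthogonal _ _).1 hφ _ (main x)
  ext x
  simp [this x]

end P365L.Inf
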