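import Vale.Agent.P365.Inf.Wiener

set_option linter.all false

/-!
# P365 INF: the resolvent as a linear map, eigenvectors, orthogonality
-/

namespace P365L.Inf

open MeasureTheory Complex Filter Topology
open scoped ENNReal InnerProductSpace

/-- the resolvent `(H_V - z)⁻¹ ψ` (zero if `Im z ≤ 0`) -/
noncomputable def Res (V : Site → ℝ) (z : ℂ) (ψ : L2) : L2 :=
  if h : 0 < z.im then Classical.choose (resolvent_exists V h ψ) else 0

variable {V : Site → ℝ} {z : ℂ}

theorem res_spec (V : Site → ℝ) {z : ℂ} (hz : 0 < z.im) (ψ : L2) :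
    IsResolvent V z ψ (Res V z ψ) := by
  unfold Res
  rw [dif_pos hz]
  exact Classical.choose_spec (resolvent_exists V hz ψ)

theorem res_unique (hz : 0 < z.im) {ψ u : L2} (h : IsResolvent V z ψ u) : Res V z ψ = u :=
  resolvent_unique hz (res_spec V hz ψ) h

theorem res_add (hz : 0 < z.im) (ψ φ : L2) : Res V z (ψ + φ) = Res V z ψ + Res V z φ :=
  res_unique hz (isResolvent_add (res_spec V hz ψ) (res_spec V hz φ))

theorem res_smul (hz : 0 < z.im) (c : ℂ) (ψ : L2) : Res V z (c • ψ) = c • Res V z ψ :=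
  res_unique hz (isResolvent_smul c (res_spec V hz ψ))

theorem res_neg (hz : 0 < z.im) (ψ : L2) : Res V z (-ψ) = -Res V z ψ := by
  have := res_smul (V := V) hz (-1) ψ
  simpa using this

theorem res_sub (hz : 0 < z.im) (ψ φ : L2) : Res V z (ψ - φ) = Res V z ψ - Res V z φ := by
  rw [sub_eq_add_neg, res_add hz, res_neg hz, ← sub_eq_add_neg]

theorem res_norm_le (hz : 0 < z.im) (ψ : L2) : ‖Res V z ψ‖ ≤ ‖ψ‖ / z.im :=
  resolvent_norm_le hz (res_spec V hz ψ)

theorem res_energy (hz : 0 < z.im) (ψ : L2) :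
    (⟪ψ, Res V z ψ⟫_ℂ).im = z.im * ‖Res V z ψ‖ ^ 2 :=
  resolvent_energy hz (res_spec V hz ψ)

/-- first resolvent identity -/
theorem res_identity {w : ℂ} (hz : 0 < z.im) (hw : 0 < w.im) (ψ : L2) :
    Res V z ψ = Res V w ψ + (z - w) • Res V z (Res V w ψ) := by
  refine res_unique hz ?_
  intro x
  have h1 := res_spec V hw ψ x
  have h2 := res_spec V hz (Res V w ψ) x
  simp only [hop, lp.coeFn_add, Pi.add_apply, lp.coeFn_smul, Pi.smul_apply, smul_eq_mul] at *
  linear_combination h1 + (z - w) * h2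

/-- polarised energy identity -/
theorem res_pol (hz : 0 < z.im) (ψ φ : L2) :
    ⟪ψ, Res V z φ⟫_ℂ - ⟪Res V z ψ, φ⟫_ℂ =
      (2 * z.im * I : ℂ) * ⟪Res V z ψ, Res V z φ⟫_ℂ := by
  -- the sesquilinear form
  let S : L2 → L2 → ℂ := fun ψ φ => ⟪ψ, Res V z φ⟫_ℂ - ⟪Res V z ψ, φ⟫_ℂ -
    (2 * z.im * I : ℂ) * ⟪Res V z ψ, Res V z φ⟫_ℂ
  have hdiag : ∀ ψ, S ψ ψ = 0 := by
    intro ψ
    simp only [S]
    have h1 : ⟪Res V z ψ, ψ⟫_ℂ = (starRingEnd ℂ) ⟪ψ, Res V z ψ⟫_ℂ := (inner_conj_symm _ _).symm
    have h2 := res_energy (V := V) hz ψ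
    have h3 : ⟪Res V z ψ, Res V z ψ⟫_ℂ = ((‖Res V z ψ‖ ^ 2 : ℝ) : ℂ) := by
      rw [inner_self_eq_norm_sq_to_K]
      norm_cast
    rw [h1, h3, Complex.sub_conj, h2]
    push_cast
    ring
  have hadd : ∀ a b c : L2, S (a + b) c = S a c + S b c := by
    intro a b c
    simp only [S, res_add hz, inner_add_left]
    ring
  have hadd' : ∀ a b c : L2, S a (b + c) = S a b + S a c := by
    intro a b c
    simp only [S, res_add hz, inner_add_right]
    ring
  have hsm : ∀ (k : ℂ) (a b : L2), S a (k • b) = k * S a b := by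
    intro k a b
    simp only [S, res_smul hz, inner_smul_right]
    ring
  have hsm' : ∀ (k : ℂ) (a b : L2), S (k • a) b = (starRingEnd ℂ) k * S a b := by
    intro k a b
    simp only [S, res_smul hz, inner_smul_left]
    ring
  have e1 : S ψ φ + S φ ψ = 0 := by
    have h := hdiag (ψ + φ)
    rw [hadd, hadd', hadd', hdiag, hdiag] at h
    linear_combination h
  have e2 : I * S ψ φ - I * S φ ψ = 0 := by
    have h := hdiag (ψ + I • φ)
    rw [hadd, hadd', hadd', hdiag, hdiag, hsm, hsm'] at h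
    rw [Complex.conj_I] at h
    linear_combination h
  have e3 : S ψ φ - S φ ψ = 0 := by
    have : I * (S ψ φ - S φ ψ) = 0 := by linear_combination e2
    rcases mul_eq_zero.1 this with h | h
    · exact absurd h Complex.I_ne_zero
    · exact h
  have e4 : S ψ φ = 0 := by linear_combination (e1 + e3) / 2
  simp only [S] at e4
  linear_combination e4

/-- `u` is an eigenvector (or zero) of `H_V` with the eigenvalue `E` -/
def IsEig (V : Site → ℝ) (E : ℝ) (u : L2) : Prop :=
  ∀ x : Site, hop (fun y => u y) x + (V x : ℂ) * u x = (E : ℂ) * u x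

theorem sub_ne (hz : 0 < z.im) (E : ℝ) : (E : ℂ) - z ≠ 0 := by
  intro h
  have := congrArg Complex.im h
  simp at this
  exact hz.ne' this

theorem res_eig (hz : 0 < z.im) {E : ℝ} {e : L2} (he : IsEig V E e) :
    Res V z e = ((E : ℂ) - z)⁻¹ • e := by
  refine res_unique hz ?_
  intro x
  have h1 := he x
  have h2 := sub_ne hz E
  simp only [hop, lp.coeFn_smul, Pi.smul_apply, smul_eq_mul] at *
  field_simp
  linear_combination h1

theorem inner_res_eig (hz : 0 < z.im) {E : ℝ} {e : L2} (he : IsEig V E e) (φ : L2) :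
    ⟪e, Res V z φ⟫_ℂ = ((E : ℂ) - z)⁻¹ * ⟪e, φ⟫_ℂ := by
  have h := res_pol (V := V) hz e φ
  rw [res_eig hz he, inner_smul_left, inner_smul_left] at h
  have h2 := sub_ne hz E
  have h3 : (starRingEnd ℂ) ((E : ℂ) - z)⁻¹ = ((E : ℂ) - (starRingEnd ℂ) z)⁻¹ := by
    simp [map_inv₀]
  have h4 : (E : ℂ) - (starRingEnd ℂ) z ≠ 0 := by
    intro h
    apply h2
    have := congrArg (starRingEnd ℂ) h
    simpa using this
  rw [h3] at h
  have h5 : (2 * z.im * I : ℂ) = z - (starRingEnd ℂ) z := by
    rw [Complex.sub_conj]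
    push_cast
    ring
  rw [h5] at h
  field_simp at h ⊢
  linear_combination h

/-- the closed span of the eigenvectors -/
noncomputable def EE (V : Site → ℝ) : Submodule ℂ L2 :=
  (Submodule.span ℂ {u : L2 | ∃ E : ℝ, IsEig V E u}).topologicalClosure

theorem isClosed_EE (V : Site → ℝ) : IsClosed (EE V : Set L2) :=
  Submodule.isClosed_topologicalClosure _

instance (V : Site → ℝ) : CompleteSpace (EE V) := (isClosed_EE V).completeSpace_coe

theorem eig_mem {E : ℝ} {e : L2} (he : IsEig V E e) : e ∈ EE V :=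
  Submodule.le_topologicalClosure _ (Submodule.subset_span ⟨E, he⟩)

/-- a vector is orthogonal to all of `EE` iff it is orthogonal to all eigenvectors -/
theorem mem_orth {ψ : L2} (h : ∀ (E : ℝ) (e : L2), IsEig V E e → ⟪e, ψ⟫_ℂ = 0) :
    ψ ∈ (EE V)ᗮ := by
  unfold EE
  rw [Submodule.orthogonal_closure]
  rw [Submodule.mem_orthogonal]
  intro u hu
  induction hu using Submodule.span_induction with
  | mem x hx =>
    obtain ⟨E, hE⟩ := hx
    exact h E x hE
  | zero => exact inner_zero_left _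
  | add x y _ _ hx hy => rw [inner_add_left, hx, hy, add_zero]
  | smul a x _ hx => rw [inner_smul_left, hx, mul_zero]

theorem orth_eig {ψ : L2} (h : ψ ∈ (EE V)ᗮ) {E : ℝ} {e : L2} (he : IsEig V E e) :
    ⟪e, ψ⟫_ℂ = 0 :=
  (Submodule.mem_orthogonal _ _).1 h e (eig_mem he)

theorem res_orth (hz : 0 < z.im) {ψ : L2} (h : ψ ∈ (EE V)ᗮ) : Res V z ψ ∈ (EE V)ᗮ := by
  refine mem_orth fun E e he => ?_
  rw [inner_res_eig hz he, orth_eig h he, mul_zero]

theorem res_continuous (V : Site → ℝ) (hz : 0 < z.im) : Continuous (Res V z) := by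
  have hlip : LipschitzWith (Real.toNNReal (1 / z.im)) (Res V z) := by
    refine LipschitzWith.of_dist_le_mul fun a b => ?_
    rw [dist_eq_norm, dist_eq_norm, ← res_sub hz]
    refine (res_norm_le hz _).trans ?_
    rw [Real.coe_toNNReal _ (by positivity)]
    rw [one_div, div_eq_mul_inv, mul_comm]
  exact hlip.continuous

theorem res_mem (hz : 0 < z.im) {ψ : L2} (h : ψ ∈ EE V) : Res V z ψ ∈ EE V := by
  have h1 : ψ ∈ closure ((Submodule.span ℂ {u : L2 | ∃ E : ℝ, IsEig V E u} :
    Submodule ℂ L2) : Set L2) := h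
  have h2 : Set.MapsTo (Res V z) ((Submodule.span ℂ {u : L2 | ∃ E : ℝ, IsEig V E u} :
      Submodule ℂ L2) : Set L2) (EE V : Set L2) := by
    intro x hx
    have hx' : x ∈ Submodule.span ℂ {u : L2 | ∃ E : ℝ, IsEig V E u} := hx
    show Res V z x ∈ EE V
    clear hx
    induction hx' using Submodule.span_induction with
    | mem x hx =>
      obtain ⟨E, hE⟩ := hx
      rw [res_eig hz hE]
      exact Submodule.smul_mem _ _ (eig_mem hE)
    | zero =>
      have : Res V z (0 : L2) = 0 := by
        have := res_smul (V := V) hz 0 0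
        simpa using this
      rw [this]
      exact Submodule.zero_mem _
    | add x y _ _ hx hy =>
      rw [res_add hz]
      exact Submodule.add_mem _ hx hy
    | smul a x _ hx =>
      rw [res_smul hz]
      exact Submodule.smul_mem _ _ hx
  have h3 := map_mem_closure (res_continuous V hz) h1 h2
  rw [(isClosed_EE V).closure_eq] at h3
  exact h3

/-- continuity of the resolvent in the energy -/
theorem res_continuous_energy (V : Site → ℝ) {η : ℝ} (hη : 0 < η) (ψ : L2) :
    Continuous fun E : ℝ => Res V (E + η * I) ψ := by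
  have hz : ∀ E : ℝ, 0 < ((E : ℂ) + η * I).im := fun E => by simpa using hη
  have hlip : LipschitzWith (Real.toNNReal (‖ψ‖ / η / η)) fun E : ℝ => Res V (E + η * I) ψ := by
    refine LipschitzWith.of_dist_le_mul fun a b => ?_
    rw [dist_eq_norm, dist_eq_norm]
    have h1 := res_identity (V := V) (hz a) (hz b) ψ
    have h2 : Res V (a + η * I) ψ - Res V (b + η * I) ψ =
        (((a : ℂ) + η * I) - (b + η * I)) • Res V (a + η * I) (Res V (b + η * I) ψ) := by
      rw [sub_eq_iff_eq_add, add_comm (_ • _)]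
      exact h1
    rw [h2, norm_smul]
    have h3 : ‖((a : ℂ) + η * I) - (b + η * I)‖ = ‖a - b‖ := by
      have : ((a : ℂ) + η * I) - (b + η * I) = ((a - b : ℝ) : ℂ) := by push_cast; ring
      rw [this, Complex.norm_real]
    rw [h3, mul_comm, Real.coe_toNNReal _ (by positivity)]
    refine mul_le_mul_of_nonneg_right ?_ (norm_nonneg _)
    refine (res_norm_le (hz a) _).trans ?_
    have h4 : ((a : ℂ) + η * I).im = η := by simp
    have h5 : ((b : ℂ) + η * I).im = η := by simp
    rw [h4]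
    refine div_le_div_of_nonneg_right ?_ hη.le
    have := res_norm_le (V := V) (hz b) ψ
    rwa [h5] at this
  exact hlip.continuous

end P365L.Inf
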